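import Mathlib

/-!
Circuit model for parity in QAC0: basis strings, operators, generalized Toffoli gates,
layers, circuits in the normal form (one-qubit layer)(Toffoli layer)...(one-qubit layer),
and the parity correlation of a measured qubit.
-/

open scoped BigOperators

namespace Vale.Agent.Lib.P368x

/-- Computational basis strings of `N` qubits. -/
abbrev Str (N : ℕ) := Fin N → Bool

/-- Operators on `N` qubits: complex matrices indexed by basis strings. -/
abbrev Op (N : ℕ) := Matrix (Str N) (Str N) ℂ

/-- Tensor product of one-qubit matrices: the entry at `(a, b)` is `∏ i, X i (a i) (b i)`. -/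
noncomputable def tensor {N : ℕ} (X : Fin N → Matrix Bool Bool ℂ) : Op N :=
  Matrix.of fun a b => ∏ i, X i (a i) (b i)

/-- A generalized Toffoli gate: distinct qubits `controls` (at least one) and `target`. -/
structure Toffoli (N : ℕ) where
  controls : Finset (Fin N)
  target : Fin N
  target_not_mem : target ∉ controls
  controls_nonempty : controls.Nonempty

/-- The qubits a Toffoli gate acts on. -/
def Toffoli.support {N : ℕ} (g : Toffoli N) : Finset (Fin N) := insert g.target g.controls

/-- Action of a Toffoli gate on basis strings: the target is flipped iff all controls are `true`. -/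
def Toffoli.act {N : ℕ} (g : Toffoli N) (b : Str N) : Str N :=
  Function.update b g.target (xor (b g.target) (decide (∀ c ∈ g.controls, b c = true)))

/-- The permutation matrix of a Toffoli gate: `g.op a b = ⟨a| g |b⟩`. -/
noncomputable def Toffoli.op {N : ℕ} (g : Toffoli N) : Op N :=
  Matrix.of fun a b => if a = g.act b then 1 else 0

/-- A layer of multi-qubit gates: Toffoli gates with pairwise disjoint supports. -/
structure Layer (N : ℕ) where
  gates : List (Toffoli N)
  disjoint : gates.Pairwise fun g h => Disjoint g.support h.support

/-- The unitary of a layer (its gates commute, so the order in the product does not matter). -/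
noncomputable def Layer.op {N : ℕ} (L : Layer N) : Op N := (L.gates.map Toffoli.op).prod

/-- A layer of arbitrary one-qubit unitaries, one on each qubit. -/
abbrev OneQubitLayer (N : ℕ) := Fin N → Matrix.unitaryGroup Bool ℂ

/-- The unitary of a layer of one-qubit gates. -/
noncomputable def OneQubitLayer.op {N : ℕ} (V : OneQubitLayer N) : Op N :=
  tensor fun i => (V i : Matrix Bool Bool ℂ)

/-- A circuit in normal form: a first layer of one-qubit gates, then a list of steps, each
a layer of Toffoli gates followed by a layer of one-qubit gates. The entangling depth is the
length of `steps`. (One-qubit gates sharing a layer with Toffoli gates commute with them and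
can be moved to a neighbouring one-qubit layer; consecutive one-qubit layers merge.) -/
structure Circuit (N : ℕ) where
  first : OneQubitLayer N
  steps : List (Layer N × OneQubitLayer N)

/-- The unitary of a circuit: later steps multiply on the left. -/
noncomputable def Circuit.unitary {N : ℕ} (C : Circuit N) : Op N :=
  C.steps.foldl (fun U s => s.2.op * s.1.op * U) C.first.op

/-- The initial basis string of input `x`: the inputs sit on the qubits `inp i`,
all other qubits (the ancillas) are `false`. -/
noncomputable def initial {n N : ℕ} (inp : Fin n ↪ Fin N) (x : Fin n → Bool) : Str N :=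
  Function.extend inp x fun _ => false

/-- Parity of a bit string, as a Boolean. -/
def parity {n : ℕ} (x : Fin n → Bool) : Bool :=
  decide (Odd (Finset.univ.filter fun i => x i = true).card)

/-- Probability that measuring qubit `q` of the state `U |s⟩` gives the value `v`. -/
noncomputable def outcomeProb {N : ℕ} (U : Op N) (s : Str N) (q : Fin N) (v : Bool) : ℝ :=
  ∑ a : Str N, if a q = v then Complex.normSq (U a s) else 0

/-- Probability that circuit `C`, on input `x`, answers `PAR x` when measuring qubit `q`. -/
noncomputable def probCorrect {n N : ℕ} (C : Circuit N) (inp : Fin n ↪ Fin N) (q : Fin N)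
    (x : Fin n → Bool) : ℝ :=
  outcomeProb C.unitary (initial inp x) q (parity x)

/-- Probability that circuit `C`, on input `x`, answers the negation of `PAR x`. -/
noncomputable def probWrong {n N : ℕ} (C : Circuit N) (inp : Fin n ↪ Fin N) (q : Fin N)
    (x : Fin n → Bool) : ℝ :=
  outcomeProb C.unitary (initial inp x) q (!parity x)

/-- Parity correlation: the average over uniform `x` of `Pr[correct] - Pr[wrong]`. -/
noncomputable def correlation {n N : ℕ} (C : Circuit N) (inp : Fin n ↪ Fin N) (q : Fin N) : ℝ :=
  (1 / 2 ^ n : ℝ) * ∑ x : Fin n → Bool, (probCorrect C inp q x - probWrong C inp q x)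

end Vale.Agent.Lib.P368x
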