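import Vale.Agent.Lib.P368x.Toffoli

open scoped BigOperators Matrix Matrix.Norms.L2Operator

namespace Vale.Agent.Lib.P368x

variable {N : ℕ}

/-- The one-qubit matrices of a layer of one-qubit gates. -/
noncomputable def OneQubitLayer.mat (V : OneQubitLayer N) : Fin N → M2 := fun i => (V i : M2)

lemma OneQubitLayer.mat_uni (V : OneQubitLayer N) (i : Fin N) : Uni (V.mat i) := uni_of_unitary _

lemma OneQubitLayer.op_eq (V : OneQubitLayer N) : V.op = tensor V.mat := rfl

lemma Layer.conj_eq (L : Layer N) (v : Fin N → M2) (hv : ∀ i, Uni (v i)) :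
    (tensor v)ᴴ * L.op * tensor v = lop (L.gates.map fun g => g.conj v hv) :=
  list_conj L.gates v hv

lemma Layer.conj_pairwise (L : Layer N) (v : Fin N → M2) (hv : ∀ i, Uni (v i)) :
    (L.gates.map fun g => g.conj v hv).Pairwise fun g h => Disjoint g.S h.S :=
  list_conj_pairwise L.gates L.disjoint v hv

/-- Conjugating a Pauli Z at one site by a layer of one-qubit unitaries. -/
lemma conj_Zs (b : Fin N → M2) (hb : ∀ i, Uni (b i)) (q : Fin N) :
    (tensor b)ᴴ * Zs q * tensor b = (2 : ℂ) • site q ((b q)ᴴ * e00 * b q) - 1 := by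
  have hZ : pauliZ = (2 : ℂ) • e00 - 1 := by
    ext a c
    cases a <;> cases c <;> simp [pauliZ, e00]
    norm_num
  have h1 : (tensor b)ᴴ * Zs q * tensor b = site q ((b q)ᴴ * pauliZ * b q) := by
    rw [tensor_conjTranspose, Zs, site, tensor_mul, tensor_mul, site]
    congr 1
    funext s
    by_cases hs : s = q
    · subst hs; simp
    · simp only [Function.update_of_ne hs, mul_one]
      exact (hb s).1
  have h2 : (b q)ᴴ * pauliZ * b q = (2 : ℂ) • ((b q)ᴴ * e00 * b q) + (-1 : ℂ) • (1 : M2) := by
    rw [hZ, mul_sub, sub_mul, mul_smul_comm, smul_mul_assoc, mul_one, (hb q).1]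
    ext a c
    simp [sub_eq_add_neg]
  rw [h1, h2, site_add, site_smul, site_smul, site_one]
  ext a c
  simp [sub_eq_add_neg]

/-- The core bound at entangling depth two, in operator form. -/
theorem main_operator (V₁ V₂ V₃ : OneQubitLayer N) (L₁ L₂ : Layer N) (q : Fin N)
    (I : Finset (Fin N)) :
    ∃ U : Op N, U = V₃.op * L₂.op * (V₂.op * L₁.op * V₁.op) ∧ Uᴴ * U = 1 ∧
      ‖E I (Uᴴ * Zs q * U)‖ ≤ 7 * (6 / 7 : ℝ) ^ I.card := by
  set v := V₁.mat with hv
  have hvu : ∀ i, Uni (v i) := V₁.mat_uni
  set w := V₂.mat with hw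
  set z := V₃.mat with hz
  set a : Fin N → M2 := fun i => w i * v i with ha
  have hau : ∀ i, Uni (a i) := fun i => (V₂.mat_uni i).mul (hvu i)
  set b : Fin N → M2 := fun i => z i * a i with hb
  have hbu : ∀ i, Uni (b i) := fun i => (V₃.mat_uni i).mul (hau i)
  set gs₁ := L₁.gates.map fun g => g.conj v hvu with hgs₁
  set gs₂ := L₂.gates.map fun g => g.conj a hau with hgs₂
  have hd₁ : gs₁.Pairwise fun g h => Disjoint g.S h.S := L₁.conj_pairwise v hvu
  have hd₂ : gs₂.Pairwise fun g h => Disjoint g.S h.S := L₂.conj_pairwise a hau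
  have hM₁ : lop gs₁ = (tensor v)ᴴ * L₁.op * tensor v := (L₁.conj_eq v hvu).symm
  have hM₂ : lop gs₂ = (tensor a)ᴴ * L₂.op * tensor a := (L₂.conj_eq a hau).symm
  have hta : tensor a = tensor w * tensor v := (tensor_mul w v).symm
  have htb : tensor b = tensor z * tensor a := (tensor_mul z a).symm
  have hU : V₃.op * L₂.op * (V₂.op * L₁.op * V₁.op) = tensor b * lop gs₂ * lop gs₁ := by
    rw [OneQubitLayer.op_eq, OneQubitLayer.op_eq, OneQubitLayer.op_eq, hM₁, hM₂]
    have e1 : tensor b * ((tensor a)ᴴ * L₂.op * tensor a) = tensor z * L₂.op * tensor a := by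
      rw [htb]
      calc tensor z * tensor a * ((tensor a)ᴴ * L₂.op * tensor a)
          = tensor z * (tensor a * (tensor a)ᴴ) * L₂.op * tensor a := by simp only [mul_assoc]
        _ = _ := by rw [tensor_unitary' hau, mul_one]
    rw [e1, hta]
    symm
    calc tensor z * L₂.op * (tensor w * tensor v) * ((tensor v)ᴴ * L₁.op * tensor v)
        = tensor z * L₂.op * tensor w * (tensor v * (tensor v)ᴴ) * L₁.op * tensor v := by
          simp only [mul_assoc]
      _ = _ := by rw [tensor_unitary' hvu, mul_one]; simp only [mul_assoc]; rfl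
  set M₁ := lop gs₁ with hM₁'
  set M₂ := lop gs₂ with hM₂'
  have hM₁u : M₁ᴴ * M₁ = 1 := lop_unitary gs₁
  have hM₂u : M₂ᴴ * M₂ = 1 := lop_unitary gs₂
  refine ⟨_, rfl, ?_, ?_⟩
  · rw [hU, Matrix.conjTranspose_mul, Matrix.conjTranspose_mul]
    calc M₁ᴴ * (M₂ᴴ * (tensor b)ᴴ) * (tensor b * M₂ * M₁)
        = M₁ᴴ * (M₂ᴴ * ((tensor b)ᴴ * tensor b) * M₂) * M₁ := by simp only [mul_assoc]
      _ = 1 := by rw [tensor_unitary hbu, mul_one, hM₂u, mul_one, hM₁u]
  · set p : M2 := (b q)ᴴ * e00 * b q with hp
    have hpP : Proj1 p := proj1_e00.conj (hbu q)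
    have hO : (V₃.op * L₂.op * (V₂.op * L₁.op * V₁.op))ᴴ * Zs q * (V₃.op * L₂.op * (V₂.op * L₁.op * V₁.op))
        = (2 : ℂ) • (M₁ᴴ * (M₂ᴴ * site q p * M₂) * M₁) - 1 := by
      rw [hU, Matrix.conjTranspose_mul, Matrix.conjTranspose_mul]
      calc M₁ᴴ * (M₂ᴴ * (tensor b)ᴴ) * Zs q * (tensor b * M₂ * M₁)
          = M₁ᴴ * (M₂ᴴ * ((tensor b)ᴴ * Zs q * tensor b) * M₂) * M₁ := by simp only [mul_assoc]
        _ = M₁ᴴ * (M₂ᴴ * ((2 : ℂ) • site q p - 1) * M₂) * M₁ := by rw [conj_Zs b hbu q]
        _ = (2 : ℂ) • (M₁ᴴ * (M₂ᴴ * site q p * M₂) * M₁) - M₁ᴴ * (M₂ᴴ * M₂) * M₁ := by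
            simp only [mul_sub, sub_mul, mul_smul_comm, smul_mul_assoc, mul_one]
        _ = _ := by rw [hM₂u, mul_one, hM₁u]
    rw [hO]
    have key : ∀ X : Fin N → M2, (∀ s, SiteOK (X s)) → ‖E I (M₁ᴴ * tensor X * M₁)‖ ≤ (6 / 7 : ℝ) ^ I.card :=
      fun X hX => key_layer gs₁ hd₁ X hX I
    have kp : ‖E I (M₁ᴴ * site q p * M₁)‖ ≤ (6 / 7 : ℝ) ^ I.card := by
      apply key
      intro s
      by_cases hs : s = q
      · subst hs; simp only [Function.update_self]; exact Or.inr hpP
      · simp only [Function.update_of_ne hs]; exact Or.inl rfl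
    have k1 : ‖E I (1 : Op N)‖ ≤ (6 / 7 : ℝ) ^ I.card := by
      have := key (fun _ => 1) (fun _ => Or.inl rfl)
      rwa [tensor_one, mul_one, hM₁u] at this
    have hr : (0 : ℝ) ≤ (6 / 7 : ℝ) ^ I.card := by positivity
    have n2 : ‖(2 : ℂ)‖ = 2 := by norm_num
    rw [map_sub, map_smul]
    refine (norm_sub_le _ _).trans ?_
    rw [norm_smul, n2]
    rcases layer_conj_site gs₂ hd₂ q p hpP with h | ⟨X₁, X₂, hX₁, hX₂, h⟩
    · rw [h]
      linarith
    · rw [h]
      have e : M₁ᴴ * (site q p + tensor X₁ - tensor X₂) * M₁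
          = M₁ᴴ * site q p * M₁ + M₁ᴴ * tensor X₁ * M₁ - M₁ᴴ * tensor X₂ * M₁ := by
        simp only [mul_sub, mul_add, sub_mul, add_mul]
      rw [e, map_sub, map_add]
      have a1 := key X₁ hX₁
      have a2 := key X₂ hX₂
      have a3 := norm_sub_le (E I (M₁ᴴ * site q p * M₁) + E I (M₁ᴴ * tensor X₁ * M₁))
        (E I (M₁ᴴ * tensor X₂ * M₁))
      have a4 := norm_add_le (E I (M₁ᴴ * site q p * M₁)) (E I (M₁ᴴ * tensor X₁ * M₁))
      linarith

/-! ### From the circuit to the operator -/

/-- sign of a bit. -/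
noncomputable def sg (b : Bool) : ℂ := if b then -1 else 1

lemma prod_one_erase (i : Fin N) (a b : Str N) :
    ∏ j ∈ Finset.univ.erase i, (1 : M2) (a j) (b j) = if ∀ j, j ≠ i → a j = b j then 1 else 0 := by
  by_cases h : ∀ j, j ≠ i → a j = b j
  · rw [if_pos h]
    refine Finset.prod_eq_one fun j hj => ?_
    rw [h j (Finset.ne_of_mem_erase hj)]
    simp
  · rw [if_neg h]
    simp only [not_forall] at h
    obtain ⟨j, hj, hne⟩ := h
    apply Finset.prod_eq_zero (Finset.mem_erase.mpr ⟨hj, Finset.mem_univ j⟩)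
    simp [hne]

lemma Zs_eq (i : Fin N) : Zs i = Matrix.diagonal fun a : Str N => sg (a i) := by
  ext a b
  rw [Zs, site_apply, prod_one_erase]
  by_cases hab : a = b
  · subst hab
    cases h : a i <;> simp [pauliZ, sg, h]
  · rw [Matrix.diagonal_apply_ne _ hab]
    by_cases hi : a i = b i
    · rw [if_neg, mul_zero]
      intro h
      apply hab
      funext j
      by_cases hj : j = i
      · rw [hj, hi]
      · exact h j hj
    · simp [pauliZ, hi]

/-- Flip one bit. -/
def fl (i : Fin N) (a : Str N) : Str N := Function.update a i (!a i)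

lemma fl_fl (i : Fin N) (a : Str N) : fl i (fl i a) = a := by
  funext j
  by_cases hj : j = i
  · subst hj; simp [fl]
  · simp [fl, hj]

lemma Xs_apply (i : Fin N) (a b : Str N) : Xs i a b = if b = fl i a then 1 else 0 := by
  rw [Xs, site_apply, prod_one_erase]
  by_cases hb : b = fl i a
  · rw [if_pos hb]
    subst hb
    have h1 : ∀ j, j ≠ i → a j = fl i a j := fun j hj => by simp [fl, hj]
    rw [if_pos h1]
    cases h : a i <;> simp [pauliX, fl, h]
  · rw [if_neg hb]
    by_cases h1 : ∀ j, j ≠ i → a j = b j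
    · have h2 : a i = b i := by
        by_contra h3
        apply hb
        funext j
        by_cases hj : j = i
        · subst hj
          simp only [fl, Function.update_self]
          cases h4 : a j <;> cases h5 : b j <;> simp_all
        · simp only [fl, Function.update_of_ne hj]
          exact (h1 j hj).symm
      rw [h2]
      cases b i <;> simp [pauliX]
    · rw [if_neg h1, mul_zero]

lemma Xs_mul_apply (i : Fin N) (A : Op N) (a b : Str N) : (Xs i * A) a b = A (fl i a) b := by
  rw [Matrix.mul_apply]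
  simp [Xs_apply]

lemma mul_Xs_apply (i : Fin N) (A : Op N) (a b : Str N) : (A * Xs i) a b = A a (fl i b) := by
  rw [Matrix.mul_apply]
  have : ∀ c, Xs i c b = if c = fl i b then 1 else 0 := fun c => by
    rw [Xs_apply]
    by_cases h : b = fl i c
    · rw [if_pos h, if_pos (by rw [h, fl_fl])]
    · rw [if_neg h, if_neg]
      intro h2
      exact h (by rw [h2, fl_fl])
  simp [this]

lemma Zs_mul_apply (i : Fin N) (A : Op N) (a b : Str N) : (Zs i * A) a b = sg (a i) * A a b := by
  rw [Zs_eq, Matrix.diagonal_mul]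

lemma mul_Zs_apply (i : Fin N) (A : Op N) (a b : Str N) : (A * Zs i) a b = A a b * sg (b i) := by
  rw [Zs_eq, Matrix.mul_diagonal]

/-- Diagonal entries of a slice. -/
lemma sl_diag (i : Fin N) (A : Op N) (w : Str N) (hw : w i = false) :
    sl i A w w = (1 / 2) * (A w w - A (Function.update w i true) (Function.update w i true)) := by
  have hfl : fl i w = Function.update w i true := by simp [fl, hw]
  have hsg : sg (fl i w i) = -1 := by simp [fl, hw, sg]
  have h1 : sg (w i) = 1 := by simp [hw, sg]
  rw [sl_def]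
  simp only [Matrix.smul_apply, Matrix.add_apply, smul_eq_mul]
  rw [Zs_mul_apply, mul_Zs_apply, Xs_mul_apply, Zs_mul_apply, mul_Xs_apply, Xs_mul_apply,
    ← mul_assoc A, mul_Xs_apply, mul_Zs_apply, hsg, h1, hfl]
  ring

/-- Strings supported in `I`. -/
noncomputable def SI (I : Finset (Fin N)) : Finset (Str N) :=
  Finset.univ.filter fun w => ∀ j, j ∉ I → w j = false

/-- Product of signs of a string. -/
noncomputable def sgn (w : Str N) : ℂ := ∏ j, sg (w j)

lemma sgn_update_true (w : Str N) (i : Fin N) (hw : w i = false) :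
    sgn (Function.update w i true) = - sgn w := by
  simp only [sgn]
  rw [← Finset.mul_prod_erase _ _ (Finset.mem_univ i), ← Finset.mul_prod_erase (a := i) (Finset.univ) (fun j => sg (w j)) (Finset.mem_univ i)]
  have : ∏ j ∈ Finset.univ.erase i, sg (Function.update w i true j)
      = ∏ j ∈ Finset.univ.erase i, sg (w j) := by
    refine Finset.prod_congr rfl fun j hj => ?_
    rw [Function.update_of_ne (Finset.ne_of_mem_erase hj)]
  rw [this]
  simp [sg, hw]

lemma sum_SI_insert (I : Finset (Fin N)) (i : Fin N) (hi : i ∉ I) (f : Str N → ℂ) :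
    ∑ v ∈ SI (insert i I), f v = ∑ w ∈ SI I, (f w + f (Function.update w i true)) := by
  classical
  rw [← Finset.sum_filter_add_sum_filter_not (SI (insert i I)) (fun v => v i = false) f,
    Finset.sum_add_distrib]
  congr 1
  · apply Finset.sum_congr _ fun _ _ => rfl
    ext v
    simp only [SI, Finset.mem_filter, Finset.mem_univ, true_and, Finset.mem_insert, not_or]
    constructor
    · rintro ⟨h1, h2⟩ j hj
      by_cases hji : j = i
      · rw [hji, h2]
      · exact h1 j ⟨hji, hj⟩
    · intro h
      exact ⟨fun j hj => h j hj.2, h i hi⟩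
  · refine Finset.sum_nbij' (fun v => Function.update v i false) (fun w => Function.update w i true)
      ?_ ?_ ?_ ?_ ?_
    · intro v hv
      simp only [SI, Finset.mem_filter, Finset.mem_univ, true_and, Finset.mem_insert, not_or] at hv ⊢
      intro j hj
      by_cases hji : j = i
      · subst hji; simp
      · rw [Function.update_of_ne hji]
        exact hv.1 j ⟨hji, hj⟩
    · intro w hw
      simp only [SI, Finset.mem_filter, Finset.mem_univ, true_and, Finset.mem_insert, not_or] at hw ⊢
      refine ⟨fun j hj => ?_, by simp⟩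
      rw [Function.update_of_ne hj.1]
      exact hw j hj.2
    · intro v hv
      simp only [Finset.mem_filter, Bool.not_eq_false] at hv
      funext j
      by_cases hji : j = i
      · subst hji; simp [hv.2]
      · simp [hji]
    · intro w hw
      simp only [SI, Finset.mem_filter, Finset.mem_univ, true_and] at hw
      have hwi := hw i hi
      funext j
      by_cases hji : j = i
      · subst hji; simp [hwi]
      · simp [hji]
    · intro v hv
      simp only [Finset.mem_filter, Bool.not_eq_false] at hv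
      congr 1
      funext j
      by_cases hji : j = i
      · subst hji; simp [hv.2]
      · simp [hji]

/-- The all-false string. -/
def zeroStr (N : ℕ) : Str N := fun _ => false

lemma E_zero_entry (I : Finset (Fin N)) (A : Op N) :
    E I A (zeroStr N) (zeroStr N) = (1 / 2 ^ I.card : ℂ) * ∑ w ∈ SI I, sgn w * A w w := by
  classical
  induction I using Finset.induction_on generalizing A with
  | empty =>
    have hSI : SI (∅ : Finset (Fin N)) = {zeroStr N} := by
      ext w
      simp only [SI, Finset.notMem_empty, not_false_eq_true, forall_const, Finset.mem_filter,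
        Finset.mem_univ, true_and, Finset.mem_singleton]
      constructor
      · intro h; funext j; exact h j
      · rintro rfl j; rfl
    simp [hSI, sgn, zeroStr, sg]
  | insert i I hi ih =>
    rw [E_insert' hi]
    show E I (sl i A) _ _ = _
    rw [ih, sum_SI_insert I i hi, Finset.card_insert_of_notMem hi, pow_succ]
    have : ∀ w ∈ SI I, sgn w * sl i A w w
        = (1 / 2) * (sgn w * A w w + sgn (Function.update w i true) *
            A (Function.update w i true) (Function.update w i true)) := by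
      intro w hw
      simp only [SI, Finset.mem_filter, Finset.mem_univ, true_and] at hw
      have hwi := hw i hi
      rw [sl_diag i A w hwi, sgn_update_true w i hwi]
      ring
    rw [Finset.sum_congr rfl this, ← Finset.mul_sum]
    have h2 : ((2 : ℂ) ^ I.card) ≠ 0 := pow_ne_zero _ (by norm_num)
    field_simp

lemma abs_entry_le (A : Op N) (w : Str N) : ‖A w w‖ ≤ ‖A‖ := by
  classical
  have h := Matrix.l2_opNorm_mulVec A (EuclideanSpace.single w (1 : ℂ))
  have h1 : ‖EuclideanSpace.single w (1 : ℂ)‖ = 1 := by simp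
  rw [h1, mul_one] at h
  refine le_trans ?_ h
  have h2 := PiLp.norm_apply_le (WithLp.toLp 2 (A *ᵥ (EuclideanSpace.single w (1 : ℂ)).ofLp)) w
  refine le_trans ?_ h2
  simp

/-! ### The correlation -/

lemma initial_mem_SI {n : ℕ} (inp : Fin n ↪ Fin N) (x : Fin n → Bool) :
    initial inp x ∈ SI (Finset.univ.map inp) := by
  simp only [SI, Finset.mem_filter, Finset.mem_univ, true_and]
  intro j hj
  have : ¬ ∃ a, inp a = j := fun ⟨a, ha⟩ => hj (by simp [← ha])
  rw [initial, Function.extend_apply' _ _ _ this]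

lemma initial_apply {n : ℕ} (inp : Fin n ↪ Fin N) (x : Fin n → Bool) (i : Fin n) :
    initial inp x (inp i) = x i := inp.injective.extend_apply _ _ _

lemma sgn_initial {n : ℕ} (inp : Fin n ↪ Fin N) (x : Fin n → Bool) :
    sgn (initial inp x) = sg (parity x) := by
  classical
  have h1 : sgn (initial inp x) = ∏ i : Fin n, sg (x i) := by
    have h2 := initial_mem_SI inp x
    simp only [SI, Finset.mem_filter, Finset.mem_univ, true_and] at h2
    rw [sgn, ← Finset.prod_subset (Finset.subset_univ (Finset.univ.map inp))]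
    · rw [Finset.prod_map]
      refine Finset.prod_congr rfl fun i _ => ?_
      rw [initial_apply]
    · intro j _ hj
      rw [h2 j hj]
      simp [sg]
  rw [h1]
  have h3 : ∏ i : Fin n, sg (x i) = ∏ i : Fin n, if x i = true then (-1 : ℂ) else 1 := rfl
  rw [h3, Finset.prod_ite, Finset.prod_const_one, mul_one, Finset.prod_const]
  simp only [parity, sg, decide_eq_true_eq]
  by_cases h : Odd (Finset.univ.filter fun i => x i = true).card
  · rw [h.neg_one_pow, if_pos h]
  · rw [if_neg h, (Nat.not_odd_iff_even.mp h).neg_one_pow]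

lemma sum_initial {n : ℕ} (inp : Fin n ↪ Fin N) (f : Str N → ℂ) :
    ∑ x : Fin n → Bool, f (initial inp x) = ∑ w ∈ SI (Finset.univ.map inp), f w := by
  classical
  refine Finset.sum_nbij' (fun x => initial inp x) (fun w => fun i => w (inp i)) ?_ ?_ ?_ ?_ ?_
  · intro x _; exact initial_mem_SI inp x
  · intro w _; exact Finset.mem_univ _
  · intro x _
    funext i
    exact initial_apply inp x i
  · intro w hw
    simp only [SI, Finset.mem_filter, Finset.mem_univ, true_and] at hw
    funext j
    by_cases hj : ∃ a, inp a = j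
    · obtain ⟨a, rfl⟩ := hj
      exact initial_apply inp _ a
    · rw [initial, Function.extend_apply' _ _ _ hj]
      exact (hw j fun h => hj (by simpa using h)).symm
  · intro x _; rfl

/-- Difference of outcome probabilities in terms of the Heisenberg observable. -/
lemma outcome_diff (U : Op N) (s : Str N) (q : Fin N) (v : Bool) :
    ((outcomeProb U s q v - outcomeProb U s q (!v) : ℝ) : ℂ) = sg v * (Uᴴ * Zs q * U) s s := by
  have h1 : (Uᴴ * Zs q * U) s s = ∑ a : Str N, sg (a q) * ((Complex.normSq (U a s) : ℝ) : ℂ) := by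
    rw [mul_assoc, Matrix.mul_apply]
    refine Finset.sum_congr rfl fun a _ => ?_
    rw [Zs_mul_apply, Matrix.conjTranspose_apply, Complex.normSq_eq_conj_mul_self]
    simp only [Complex.star_def]
    ring
  rw [h1, outcomeProb, outcomeProb, Finset.mul_sum]
  push_cast
  rw [← Finset.sum_sub_distrib]
  refine Finset.sum_congr rfl fun a _ => ?_
  cases v <;> cases h : a q <;> simp [sg]

lemma probs_sum (U : Op N) (hU : Uᴴ * U = 1) (s : Str N) (q : Fin N) (v : Bool) :
    outcomeProb U s q v + outcomeProb U s q (!v) = 1 := by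
  have h1 : (Uᴴ * U) s s = ((∑ a : Str N, Complex.normSq (U a s) : ℝ) : ℂ) := by
    rw [Matrix.mul_apply]
    push_cast
    refine Finset.sum_congr rfl fun a _ => ?_
    rw [Matrix.conjTranspose_apply, Complex.normSq_eq_conj_mul_self]
    simp only [Complex.star_def]
  rw [hU, Matrix.one_apply_eq] at h1
  have h2 : ∑ a : Str N, Complex.normSq (U a s) = 1 := by
    have := h1.symm
    exact_mod_cast this
  rw [outcomeProb, outcomeProb, ← Finset.sum_add_distrib, ← h2]
  refine Finset.sum_congr rfl fun a _ => ?_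
  cases v <;> cases h : a q <;> simp

lemma correlation_eq {n : ℕ} (C : Circuit N) (inp : Fin n ↪ Fin N) (q : Fin N) :
    ((correlation C inp q : ℝ) : ℂ) =
      E (Finset.univ.map inp) ((C.unitary)ᴴ * Zs q * C.unitary) (zeroStr N) (zeroStr N) := by
  rw [E_zero_entry, Finset.card_map, Finset.card_univ, Fintype.card_fin, correlation]
  push_cast
  congr 1
  rw [← sum_initial inp (fun w => sgn w * ((C.unitary)ᴴ * Zs q * C.unitary) w w)]
  refine Finset.sum_congr rfl fun x _ => ?_
  rw [sgn_initial, probCorrect, probWrong, ← Complex.ofReal_sub, outcome_diff]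

lemma abs_correlation_le {n : ℕ} (C : Circuit N) (inp : Fin n ↪ Fin N) (q : Fin N) :
    |correlation C inp q| ≤ ‖E (Finset.univ.map inp) ((C.unitary)ᴴ * Zs q * C.unitary)‖ := by
  have h := abs_entry_le (E (Finset.univ.map inp) ((C.unitary)ᴴ * Zs q * C.unitary)) (zeroStr N)
  rw [← correlation_eq, Complex.norm_real, Real.norm_eq_abs] at h
  exact h

/-- Advantage gives correlation. -/
lemma advantage_le_correlation {n : ℕ} (C : Circuit N) (hU : (C.unitary)ᴴ * C.unitary = 1)
    (inp : Fin n ↪ Fin N) (q : Fin N) (ε : ℝ)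
    (h : ∀ x, 1 / 2 + ε ≤ probCorrect C inp q x) : 2 * ε ≤ correlation C inp q := by
  have h1 : ∀ x : Fin n → Bool, 2 * ε ≤ probCorrect C inp q x - probWrong C inp q x := by
    intro x
    have h2 := probs_sum C.unitary hU (initial inp x) q (parity x)
    have h3 := h x
    simp only [probCorrect, probWrong] at h3 ⊢
    linarith
  rw [correlation]
  have h4 : ∑ _x : Fin n → Bool, (2 * ε) ≤ ∑ x : Fin n → Bool, (probCorrect C inp q x - probWrong C inp q x) :=
    Finset.sum_le_sum fun x _ => h1 x
  rw [Finset.sum_const, Finset.card_univ, Fintype.card_fun, Fintype.card_bool, Fintype.card_fin,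
    nsmul_eq_mul] at h4
  have h5 : (0 : ℝ) < 2 ^ n := by positivity
  have h6 : 2 * ε = (1 / 2 ^ n : ℝ) * ((2 : ℕ) ^ n : ℕ) * (2 * ε) := by
    push_cast
    field_simp
  rw [h6, mul_assoc]
  apply mul_le_mul_of_nonneg_left h4 (by positivity)

/-- The empty layer. -/
def emptyLayer (N : ℕ) : Layer N := ⟨[], List.Pairwise.nil⟩

lemma emptyLayer_op : (emptyLayer N).op = 1 := rfl

/-- The layer of identity gates. -/
def idLayer (N : ℕ) : OneQubitLayer N := fun _ => 1

lemma idLayer_op : (idLayer N).op = 1 := by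
  rw [OneQubitLayer.op]
  exact tensor_one

/-- Every circuit of entangling depth at most two is of the special form. -/
lemma circuit_normal (C : Circuit N) (hC : C.steps.length ≤ 2) :
    ∃ (V₁ V₂ V₃ : OneQubitLayer N) (L₁ L₂ : Layer N),
      C.unitary = V₃.op * L₂.op * (V₂.op * L₁.op * V₁.op) := by
  obtain ⟨V₁, steps⟩ := C
  match steps, hC with
  | [], _ =>
    refine ⟨V₁, idLayer N, idLayer N, emptyLayer N, emptyLayer N, ?_⟩
    simp [Circuit.unitary, idLayer_op, emptyLayer_op]
  | [(L₁, V₂)], _ =>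
    refine ⟨V₁, V₂, idLayer N, L₁, emptyLayer N, ?_⟩
    simp [Circuit.unitary, idLayer_op, emptyLayer_op]
  | [(L₁, V₂), (L₂, V₃)], _ =>
    refine ⟨V₁, V₂, V₃, L₁, L₂, ?_⟩
    simp [Circuit.unitary]

/-- Entangling depth at most two: the parity correlation decays exponentially in `n`. -/
theorem depth_two_bound {n : ℕ} (C : Circuit N) (hC : C.steps.length ≤ 2)
    (inp : Fin n ↪ Fin N) (q : Fin N) :
    (C.unitary)ᴴ * C.unitary = 1 ∧ |correlation C inp q| ≤ 7 * (6 / 7 : ℝ) ^ n := by
  obtain ⟨V₁, V₂, V₃, L₁, L₂, hU⟩ := circuit_normal C hC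
  obtain ⟨U, hU', hu, hb⟩ := main_operator V₁ V₂ V₃ L₁ L₂ q (Finset.univ.map inp)
  rw [← hU] at hU'
  subst hU'
  refine ⟨hu, (abs_correlation_le C inp q).trans ?_⟩
  simpa using hb

end Vale.Agent.Lib.P368x
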