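import Vale.Agent.Lib.P368x.Slice

open scoped BigOperators Matrix Matrix.Norms.L2Operator

namespace Vale.Agent.Lib.P368x

variable {N : ℕ}

/-- squared norm of a vector in `ℂ²`. -/
noncomputable def nsq (u : Bool → ℂ) : ℝ := ‖u false‖ ^ 2 + ‖u true‖ ^ 2

/-- A rank-one matrix `|a⟩⟨b|` with `‖a‖, ‖b‖ ≤ 1`. -/
def R1 (Y : M2) : Prop := ∃ a b : Bool → ℂ, nsq a ≤ 1 ∧ nsq b ≤ 1 ∧ Y = Matrix.vecMulVec a (star b)

/-- A rank-one projector. -/
def Proj1 (ρ : M2) : Prop := ∃ u : Bool → ℂ, nsq u = 1 ∧ ρ = Matrix.vecMulVec u (star u)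

lemma Proj1.r1 {ρ : M2} (h : Proj1 ρ) : R1 ρ := by
  obtain ⟨u, hu, rfl⟩ := h
  exact ⟨u, u, hu.le, hu.le, rfl⟩

lemma dot_le (a b : Bool → ℂ) (ha : nsq a ≤ 1) (hb : nsq b ≤ 1) :
    ‖star (a false) * b false + star (a true) * b true‖ ≤ 1 := by
  have h1 := norm_add_le (star (a false) * b false) (star (a true) * b true)
  simp only [norm_mul, norm_star] at h1
  unfold nsq at ha hb
  nlinarith [sq_nonneg (‖a false‖ - ‖b false‖), sq_nonneg (‖a true‖ - ‖b true‖)]

lemma tau_r1 {Y : M2} (h : R1 Y) : ‖tau Y‖ ≤ 1 / 2 := by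
  obtain ⟨a, b, ha, hb, rfl⟩ := h
  simp only [tau, Matrix.vecMulVec_apply, Pi.star_apply]
  have h1 := norm_sub_le (a false * star (b false)) (a true * star (b true))
  simp only [norm_mul, norm_star] at h1
  rw [norm_mul]
  have h2 : ‖(1 / 2 : ℂ)‖ = 1 / 2 := by norm_num
  rw [h2]
  unfold nsq at ha hb
  have := norm_nonneg (a false * star (b false) - a true * star (b true))
  nlinarith [sq_nonneg (‖a false‖ - ‖b false‖), sq_nonneg (‖a true‖ - ‖b true‖)]

lemma tau_one : tau (1 : M2) = 0 := by simp [tau]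

lemma nsq_smul (c : ℂ) (u : Bool → ℂ) : nsq (c • u) = ‖c‖ ^ 2 * nsq u := by
  simp only [nsq, Pi.smul_apply, smul_eq_mul, norm_mul]
  ring

lemma nsq_nonneg (u : Bool → ℂ) : 0 ≤ nsq u := by unfold nsq; positivity

lemma R1.proj_mul {ρ Y : M2} (hρ : Proj1 ρ) (hY : R1 Y) : R1 (ρ * Y) := by
  obtain ⟨u, hu, rfl⟩ := hρ
  obtain ⟨a, b, ha, hb, rfl⟩ := hY
  refine ⟨(star (u false) * a false + star (u true) * a true) • u, b, ?_, hb, ?_⟩
  · rw [nsq_smul, hu, mul_one]
    have := dot_le u a hu.le ha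
    have h0 := norm_nonneg (star (u false) * a false + star (u true) * a true)
    nlinarith
  · ext i j
    simp [Matrix.mul_apply, Matrix.vecMulVec_apply]
    ring

lemma R1.mul_proj {ρ Y : M2} (hρ : Proj1 ρ) (hY : R1 Y) : R1 (Y * ρ) := by
  obtain ⟨u, hu, rfl⟩ := hρ
  obtain ⟨a, b, ha, hb, rfl⟩ := hY
  refine ⟨a, (star (star (b false) * u false + star (b true) * u true)) • u, ha, ?_, ?_⟩
  · rw [nsq_smul, hu, mul_one, norm_star]
    have := dot_le b u hb hu.le
    have h0 := norm_nonneg (star (b false) * u false + star (b true) * u true)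
    nlinarith
  · ext i j
    simp [Matrix.mul_apply, Matrix.vecMulVec_apply]
    ring

lemma Proj1.herm {ρ : M2} (h : Proj1 ρ) : ρᴴ = ρ := by
  obtain ⟨u, hu, rfl⟩ := h
  ext i j
  simp [Matrix.conjTranspose_apply, Matrix.vecMulVec_apply, mul_comm]

lemma Proj1.idem {ρ : M2} (h : Proj1 ρ) : ρ * ρ = ρ := by
  obtain ⟨u, hu, rfl⟩ := h
  have h1 : star u false * u false + star u true * u true = 1 := by
    have e0 : star u false * u false = ((‖u false‖ ^ 2 : ℝ) : ℂ) := by
      simp [Complex.conj_mul']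
    have e1 : star u true * u true = ((‖u true‖ ^ 2 : ℝ) : ℂ) := by
      simp [Complex.conj_mul']
    rw [e0, e1, ← Complex.ofReal_add]
    unfold nsq at hu
    rw [hu]
    simp
  ext i j
  simp only [Matrix.mul_apply, Matrix.vecMulVec_apply, Fintype.sum_bool]
  linear_combination (u i * star u j) * h1

lemma norm_le_one_of_proj {P : M2} (hh : Pᴴ = P) (hi : P * P = P) : ‖P‖ ≤ 1 := by
  have h : ‖Pᴴ * P‖ = ‖P‖ * ‖P‖ := Matrix.l2_opNorm_conjTranspose_mul_self _
  rw [hh, hi] at h
  nlinarith [norm_nonneg P]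

lemma Proj1.norm_le {ρ : M2} (h : Proj1 ρ) : ‖ρ‖ ≤ 1 := norm_le_one_of_proj h.herm h.idem

/-- Allowed factors of a product projector. -/
def SiteOK (X : M2) : Prop := X = 1 ∨ Proj1 X

lemma SiteOK.herm {X : M2} (h : SiteOK X) : Xᴴ = X := by
  rcases h with rfl | h
  · simp
  · exact h.herm

lemma SiteOK.idem {X : M2} (h : SiteOK X) : X * X = X := by
  rcases h with rfl | h
  · simp
  · exact h.idem

lemma SiteOK.norm_le {X : M2} (h : SiteOK X) : ‖X‖ ≤ 1 := by
  rcases h with rfl | h
  · simp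
  · exact h.norm_le

lemma tensor_herm {X : Fin N → M2} (h : ∀ i, (X i)ᴴ = X i) : (tensor X)ᴴ = tensor X := by
  rw [tensor_conjTranspose]
  congr 1
  funext i
  exact h i

lemma tensor_idem {X : Fin N → M2} (h : ∀ i, X i * X i = X i) : tensor X * tensor X = tensor X := by
  rw [tensor_mul]
  congr 1
  funext i
  exact h i

/-- A generalized reflection: `1 - 2 ⊗ ρ_s`, `ρ_s` a rank-one projector on `S`, identity off `S`. -/
structure RGate (N : ℕ) where
  S : Finset (Fin N)
  ρ : Fin N → M2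
  hS : ∀ s ∈ S, Proj1 (ρ s)
  hO : ∀ s, s ∉ S → ρ s = 1

noncomputable def RGate.op (g : RGate N) : Op N := 1 - (2 : ℂ) • tensor g.ρ

lemma RGate.site_ok (g : RGate N) (s : Fin N) : SiteOK (g.ρ s) := by
  by_cases h : s ∈ g.S
  · exact Or.inr (g.hS s h)
  · exact Or.inl (g.hO s h)

lemma RGate.herm (g : RGate N) : (g.op)ᴴ = g.op := by
  simp only [RGate.op, Matrix.conjTranspose_sub, Matrix.conjTranspose_one,
    Matrix.conjTranspose_smul]
  rw [tensor_herm fun i => (g.site_ok i).herm]
  simp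

lemma RGate.sq (g : RGate N) : g.op * g.op = 1 := by
  have h := tensor_idem (X := g.ρ) fun i => (g.site_ok i).idem
  simp only [RGate.op, mul_sub, sub_mul, mul_one, one_mul, smul_mul_assoc, mul_smul_comm, h]
  ext a b
  simp only [Matrix.sub_apply, Matrix.smul_apply, smul_eq_mul]
  ring

lemma norm_le_one_of_refl {R : Op N} (hh : Rᴴ = R) (hs : R * R = 1) : ‖R‖ ≤ 1 := by
  have h : ‖Rᴴ * R‖ = ‖R‖ * ‖R‖ := Matrix.l2_opNorm_conjTranspose_mul_self _
  rw [hh, hs, norm_one] at h
  nlinarith [norm_nonneg R]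

lemma RGate.norm_le (g : RGate N) : ‖g.op‖ ≤ 1 := norm_le_one_of_refl g.herm g.sq

lemma RGate.off (g : RGate N) {i : Fin N} (hi : i ∉ g.S) : Off i g.op :=
  (off_one i).sub ((off_tensor (g.hO i hi)).smul 2)

/-- `Y` has slice value at most one half and norm at most one. -/
def Good (Y : M2) : Prop := ‖Y‖ ≤ 1 ∧ ‖tau Y‖ ≤ 1 / 2

lemma norm_E_tensor_le (I : Finset (Fin N)) (Y : Fin N → M2) (hn : ∀ j, ‖Y j‖ ≤ 1)
    (ht : ∀ i ∈ I, ‖tau (Y i)‖ ≤ 1 / 2) : ‖E I (tensor Y)‖ ≤ (1 / 2 : ℝ) ^ I.card := by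
  rw [E_tensor, norm_smul, norm_prod]
  have h1 : ∏ i ∈ I, ‖tau (Y i)‖ ≤ ∏ _i ∈ I, (1 / 2 : ℝ) :=
    Finset.prod_le_prod (fun _ _ => norm_nonneg _) ht
  rw [Finset.prod_const] at h1
  have h2 : ‖tensor fun j => if j ∈ I then (1 : M2) else Y j‖ ≤ 1 := by
    apply norm_tensor_le_one
    intro j
    by_cases hj : j ∈ I
    · simp [hj]
    · simp [hj, hn j]
  have h3 : 0 ≤ ∏ i ∈ I, ‖tau (Y i)‖ := Finset.prod_nonneg fun _ _ => norm_nonneg _
  calc _ ≤ (∏ i ∈ I, ‖tau (Y i)‖) * 1 := by gcongr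
    _ ≤ _ := by rw [mul_one]; exact h1

/-- Numerics for the bound on a block with `m ≥ 1` input qubits. -/
lemma numeric_block (m : ℕ) (hm : 1 ≤ m) :
    min (1 / 2 : ℝ) (9 * (1 / 2 : ℝ) ^ m) ≤ (6 / 7 : ℝ) ^ m := by
  by_cases h : m ≤ 4
  · refine (min_le_left _ _).trans ?_
    interval_cases m <;> norm_num
  · refine (min_le_right _ _).trans ?_
    have h : 4 < m := by omega
    obtain ⟨k, rfl⟩ : ∃ k, m = k + 5 := ⟨m - 5, by omega⟩
    induction k with
    | zero => norm_num
    | succ k ih =>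
      have := ih (by omega) (by omega) (by omega)
      rw [show k + 1 + 5 = (k + 5) + 1 by ring, pow_succ (1 / 2 : ℝ) (k + 5),
        pow_succ (6 / 7 : ℝ) (k + 5)]
      have h0 : (0 : ℝ) ≤ (1 / 2 : ℝ) ^ (k + 5) := by positivity
      have h1 : (0 : ℝ) ≤ (6 / 7 : ℝ) ^ (k + 5) := by positivity
      nlinarith

/-- Bound for one block: `Q = g T g`, `T` a product projector supported in `S`. -/
lemma block_bound (g : RGate N) (X : Fin N → M2) (hX : ∀ s, SiteOK (X s))
    (I : Finset (Fin N)) (hI : I ⊆ g.S) :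
    ‖E I (g.op * tensor X * g.op)‖ ≤ (6 / 7 : ℝ) ^ I.card := by
  classical
  have hTn : ‖tensor X‖ ≤ 1 := norm_tensor_le_one X fun s => (hX s).norm_le
  have hg := g.norm_le
  by_cases hm : I.card = 0
  · have : I = ∅ := Finset.card_eq_zero.mp hm
    subst this
    simp only [E_empty, Module.End.one_apply, Finset.card_empty, pow_zero]
    calc ‖g.op * tensor X * g.op‖ ≤ ‖tensor X‖ := (mul_norm_aux' hg).trans (mul_norm_aux hg)
      _ ≤ 1 := hTn
  have hm1 : 1 ≤ I.card := Nat.one_le_iff_ne_zero.mpr hm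
  refine le_trans ?_ (numeric_block _ hm1)
  rw [le_min_iff]
  constructor
  · -- the reflection argument
    obtain ⟨i, hi⟩ := Finset.card_pos.mp hm1
    have hT1 := tensor_herm (X := X) fun i => (hX i).herm
    have hT2 := tensor_idem (X := X) fun i => (hX i).idem
    set Q := g.op * tensor X * g.op with hQ
    have hQh : Qᴴ = Q := by
      rw [hQ, Matrix.conjTranspose_mul, Matrix.conjTranspose_mul, g.herm, hT1, mul_assoc]
    have hQ2 : Q * Q = Q := by
      calc Q * Q = g.op * tensor X * (g.op * g.op) * tensor X * g.op := by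
            simp only [hQ, mul_assoc]
        _ = Q := by rw [g.sq, mul_one, mul_assoc (g.op), hT2]
    set R : Op N := (2 : ℂ) • Q - 1 with hR
    have hRh : Rᴴ = R := by
      rw [hR, Matrix.conjTranspose_sub, Matrix.conjTranspose_smul, hQh]
      simp
    have hR2 : R * R = 1 := by
      simp only [hR, mul_sub, sub_mul, mul_one, one_mul, smul_mul_assoc, mul_smul_comm, hQ2]
      ext a b
      simp only [Matrix.sub_apply, Matrix.smul_apply, smul_eq_mul]
      ring
    have hRn : ‖R‖ ≤ 1 := norm_le_one_of_refl hRh hR2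
    have hQR : Q = (1 / 2 : ℂ) • R + (1 / 2 : ℂ) • 1 := by
      rw [hR, smul_sub, smul_smul]
      norm_num
    have : E I Q = (1 / 2 : ℂ) • E I R := by
      rw [hQR, map_add, map_smul, map_smul, E_one_of_mem hi, smul_zero, add_zero]
    rw [this, norm_smul]
    have h2 : ‖(1 / 2 : ℂ)‖ = 1 / 2 := by norm_num
    rw [h2]
    have := (norm_E_le I R).trans hRn
    linarith
  · -- the expansion into four product tensors
    have hexp : g.op * tensor X * g.op = tensor X
        - (2 : ℂ) • tensor (fun s => g.ρ s * X s) - (2 : ℂ) • tensor (fun s => X s * g.ρ s)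
        + (4 : ℂ) • tensor (fun s => g.ρ s * X s * g.ρ s) := by
      rw [← tensor_mul, ← tensor_mul, ← tensor_mul, ← tensor_mul]
      simp only [RGate.op, mul_sub, sub_mul, mul_one, one_mul, smul_mul_assoc, mul_smul_comm]
      ext a b
      simp only [Matrix.sub_apply, Matrix.add_apply, Matrix.smul_apply, smul_eq_mul]
      norm_num
      ring
    have hρ : ∀ s, ‖g.ρ s‖ ≤ 1 := fun s => (g.site_ok s).norm_le
    have hXn : ∀ s, ‖X s‖ ≤ 1 := fun s => (hX s).norm_le
    have mm : ∀ A B : M2, ‖A‖ ≤ 1 → ‖B‖ ≤ 1 → ‖A * B‖ ≤ 1 := fun A B hA hB => by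
      have := norm_mul_le A B
      have := norm_nonneg A
      have := norm_nonneg B
      nlinarith
    have hr1 : ∀ s ∈ I, R1 (g.ρ s * X s) := fun s hs => by
      have hp := g.hS s (hI hs)
      rcases hX s with h | h
      · rw [h, mul_one]; exact hp.r1
      · exact R1.proj_mul hp h.r1
    have hr2 : ∀ s ∈ I, R1 (X s * g.ρ s) := fun s hs => by
      have hp := g.hS s (hI hs)
      rcases hX s with h | h
      · rw [h, one_mul]; exact hp.r1
      · exact R1.mul_proj hp h.r1
    have hr3 : ∀ s ∈ I, R1 (g.ρ s * X s * g.ρ s) := fun s hs =>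
      R1.mul_proj (g.hS s (hI hs)) (hr1 s hs)
    have t0 : ‖E I (tensor X)‖ ≤ (1 / 2 : ℝ) ^ I.card := by
      apply norm_E_tensor_le I X hXn
      intro s _
      rcases hX s with h | h
      · rw [h, tau_one]; norm_num
      · exact tau_r1 h.r1
    have t1 := norm_E_tensor_le I (fun s => g.ρ s * X s) (fun s => mm _ _ (hρ s) (hXn s))
      (fun s hs => tau_r1 (hr1 s hs))
    have t2 := norm_E_tensor_le I (fun s => X s * g.ρ s) (fun s => mm _ _ (hXn s) (hρ s))
      (fun s hs => tau_r1 (hr2 s hs))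
    have t3 := norm_E_tensor_le I (fun s => g.ρ s * X s * g.ρ s)
      (fun s => mm _ _ (mm _ _ (hρ s) (hXn s)) (hρ s)) (fun s hs => tau_r1 (hr3 s hs))
    rw [hexp, map_add, map_sub, map_sub, map_smul, map_smul, map_smul]
    have n2 : ‖(2 : ℂ)‖ = 2 := by norm_num
    have n4 : ‖(4 : ℂ)‖ = 4 := by norm_num
    refine (norm_add_le _ _).trans ?_
    have a1 := norm_sub_le (E I (tensor X) - (2 : ℂ) • E I (tensor fun s => g.ρ s * X s))
      ((2 : ℂ) • E I (tensor fun s => X s * g.ρ s))
    have a2 := norm_sub_le (E I (tensor X)) ((2 : ℂ) • E I (tensor fun s => g.ρ s * X s))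
    rw [norm_smul, n2] at a1 a2
    rw [norm_smul, n4]
    linarith

/-- The unitary of a list of reflections. -/
noncomputable def lop (gs : List (RGate N)) : Op N := (gs.map RGate.op).prod

@[simp] lemma lop_nil : lop ([] : List (RGate N)) = 1 := rfl

@[simp] lemma lop_cons (g : RGate N) (gs : List (RGate N)) : lop (g :: gs) = g.op * lop gs := by
  simp [lop]

lemma lop_unitary (gs : List (RGate N)) : (lop gs)ᴴ * lop gs = 1 := by
  induction gs with
  | nil => simp
  | cons g gs ih =>
    rw [lop_cons, Matrix.conjTranspose_mul, g.herm]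
    calc (lop gs)ᴴ * g.op * (g.op * lop gs) = (lop gs)ᴴ * (g.op * g.op) * lop gs := by
          simp only [mul_assoc]
      _ = 1 := by rw [g.sq, mul_one, ih]

/-- A pairwise-disjoint list of gates all avoiding `S`: `lop` commutes with tensors on `S`. -/
lemma lop_commute_tensor (gs : List (RGate N)) (Y : Fin N → M2) (hY : ∀ g ∈ gs, ∀ s ∈ g.S, Y s = 1) :
    Commute (lop gs) (tensor Y) := by
  induction gs with
  | nil => simp
  | cons g gs ih =>
    rw [lop_cons]
    refine Commute.mul_left ?_ (ih fun h hh => hY h (List.mem_cons_of_mem _ hh))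
    refine Commute.sub_left (Commute.one_left _) (Commute.smul_left ?_ _)
    apply tensor_commute
    intro s
    by_cases hs : s ∈ g.S
    · right; exact hY g (List.mem_cons_self ..) s hs
    · left; exact g.hO s hs

lemma lop_off (gs : List (RGate N)) (i : Fin N) (h : ∀ g ∈ gs, i ∉ g.S) : Off i (lop gs) := by
  induction gs with
  | nil => exact off_one i
  | cons g gs ih =>
    rw [lop_cons]
    exact (g.off (h g (List.mem_cons_self ..))).mul (ih fun k hk => h k (List.mem_cons_of_mem _ hk))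

/-- Key lemma: the slice of a product projector conjugated by one layer of reflections. -/
theorem key_layer (gs : List (RGate N)) (hgs : gs.Pairwise fun g h => Disjoint g.S h.S)
    (X : Fin N → M2) (hX : ∀ s, SiteOK (X s)) (I : Finset (Fin N)) :
    ‖E I ((lop gs)ᴴ * tensor X * lop gs)‖ ≤ (6 / 7 : ℝ) ^ I.card := by
  classical
  induction gs generalizing X I with
  | nil =>
    simp only [lop_nil, Matrix.conjTranspose_one, one_mul, mul_one]
    have : ‖E I (tensor X)‖ ≤ (1 / 2 : ℝ) ^ I.card := by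
      apply norm_E_tensor_le I X fun s => (hX s).norm_le
      intro s _
      rcases hX s with h | h
      · rw [h, tau_one]; norm_num
      · exact tau_r1 h.r1
    exact this.trans (pow_le_pow_left₀ (by norm_num) (by norm_num) _)
  | cons g gs ih =>
    obtain ⟨hg, hgs'⟩ := List.pairwise_cons.mp hgs
    set X₁ : Fin N → M2 := fun s => if s ∈ g.S then X s else 1 with hX₁
    set X₂ : Fin N → M2 := fun s => if s ∈ g.S then 1 else X s with hX₂
    have hsplit : tensor X = tensor X₁ * tensor X₂ := by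
      rw [tensor_mul]
      congr 1
      funext s
      by_cases hs : s ∈ g.S <;> simp [hX₁, hX₂, hs]
    have hX₁ok : ∀ s, SiteOK (X₁ s) := fun s => by
      by_cases hs : s ∈ g.S
      · simpa [hX₁, hs] using hX s
      · have h1 : X₁ s = 1 := by simp [hX₁, hs]
        rw [h1]; exact Or.inl rfl
    have hX₂ok : ∀ s, SiteOK (X₂ s) := fun s => by
      by_cases hs : s ∈ g.S
      · have h1 : X₂ s = 1 := by simp [hX₂, hs]
        rw [h1]; exact Or.inl rfl
      · simpa [hX₂, hs] using hX s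
    -- the two tensors on `g.S`
    have hgT2 : Commute g.op (tensor X₂) := by
      refine Commute.sub_left (Commute.one_left _) (Commute.smul_left ?_ _)
      apply tensor_commute
      intro s
      by_cases hs : s ∈ g.S
      · right; simp [hX₂, hs]
      · left; exact g.hO s hs
    set Q : Op N := g.op * tensor X₁ * g.op with hQ
    set L := lop gs with hL
    have hLρ : Commute L (tensor g.ρ) := by
      apply lop_commute_tensor
      intro h hh s hs
      have hd := hg h hh
      have : s ∉ g.S := fun hs' => (Finset.disjoint_left.mp hd) hs' hs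
      exact g.hO s this
    have hLT : Commute L (tensor X₁) := by
      apply lop_commute_tensor
      intro h hh s hs
      have hd := hg h hh
      have : s ∉ g.S := fun hs' => (Finset.disjoint_left.mp hd) hs' hs
      simp [hX₁, this]
    have hLg : Commute L g.op := by
      refine Commute.sub_right (Commute.one_right _) (Commute.smul_right hLρ _)
    have hLQ : Commute L Q := (hLg.mul_right hLT).mul_right hLg
    have hQh : Qᴴ = Q := by
      rw [hQ, Matrix.conjTranspose_mul, Matrix.conjTranspose_mul, g.herm,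
        tensor_herm fun i => (hX₁ok i).herm, mul_assoc]
    have hLQ' : Commute Lᴴ Q := by
      have h := hLQ.eq
      have h2 := congrArg Matrix.conjTranspose h
      rw [Matrix.conjTranspose_mul L Q, Matrix.conjTranspose_mul Q L, hQh] at h2
      exact h2.symm
    have hmain : (lop (g :: gs))ᴴ * tensor X * lop (g :: gs) = Q * (Lᴴ * tensor X₂ * L) := by
      rw [lop_cons, Matrix.conjTranspose_mul, g.herm, hsplit]
      calc Lᴴ * g.op * (tensor X₁ * tensor X₂) * (g.op * L)
          = Lᴴ * (g.op * tensor X₁ * (tensor X₂ * g.op)) * L := by simp only [mul_assoc]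
        _ = Lᴴ * (g.op * tensor X₁ * (g.op * tensor X₂)) * L := by rw [hgT2.eq.symm]
        _ = Lᴴ * Q * tensor X₂ * L := by simp only [hQ, mul_assoc]
        _ = Q * Lᴴ * tensor X₂ * L := by rw [hLQ'.eq]
        _ = Q * (Lᴴ * tensor X₂ * L) := by simp only [mul_assoc]
    set R := Lᴴ * tensor X₂ * L with hR
    set I₁ := I ∩ g.S with hI₁
    set I₂ := I \ g.S with hI₂
    have hdisj : Disjoint I₁ I₂ := by
      rw [hI₁, hI₂, Finset.disjoint_left]
      intro a ha hb
      exact (Finset.mem_sdiff.mp hb).2 (Finset.mem_inter.mp ha).2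
    have hI : I = I₁ ∪ I₂ := by
      ext a
      simp only [hI₁, hI₂, Finset.mem_union, Finset.mem_inter, Finset.mem_sdiff]
      tauto
    have hcard : I.card = I₁.card + I₂.card := by
      rw [hI, Finset.card_union_of_disjoint hdisj]
    have hQoff : ∀ i ∈ I₂, Off i Q := fun i hi => by
      have hn : i ∉ g.S := (Finset.mem_sdiff.mp hi).2
      have h1 : Off i (tensor X₁) := off_tensor (by simp [hX₁, hn])
      exact ((g.off hn).mul h1).mul (g.off hn)
    have hRoff : ∀ i ∈ I₁, Off i (E I₂ R) := fun i hi => by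
      have hin : i ∈ g.S := (Finset.mem_inter.mp hi).2
      have hn : i ∉ I₂ := fun h => (Finset.mem_sdiff.mp h).2 hin
      apply Off.sliceE hn
      have hL' : Off i L := lop_off gs i fun h hh hs =>
        (Finset.disjoint_left.mp (hg h hh)) hin hs
      have h2 : Off i (tensor X₂) := off_tensor (by simp [hX₂, hin])
      exact (hL'.conjTranspose.mul h2).mul hL'
    have hcomp : E I (Q * R) = E I₁ Q * E I₂ R := by
      conv_lhs => rw [hI, E_union hdisj]
      show E I₁ (E I₂ (Q * R)) = _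
      rw [E_mul_left_off hQoff, E_mul_right_off hRoff]
    rw [hmain, hcomp]
    have b1 : ‖E I₁ Q‖ ≤ (6 / 7 : ℝ) ^ I₁.card :=
      block_bound g X₁ hX₁ok I₁ Finset.inter_subset_right
    have b2 : ‖E I₂ R‖ ≤ (6 / 7 : ℝ) ^ I₂.card := ih hgs' X₂ hX₂ok I₂
    calc _ ≤ ‖E I₁ Q‖ * ‖E I₂ R‖ := norm_mul_le _ _
      _ ≤ (6 / 7 : ℝ) ^ I₁.card * (6 / 7 : ℝ) ^ I₂.card := by gcongr
      _ = _ := by rw [hcard, pow_add]

end Vale.Agent.Lib.P368x
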