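import Vale.Agent.Lib.P368x.Tensor

open scoped BigOperators Matrix Matrix.Norms.L2Operator

namespace Vale.Agent.Lib.P368x

variable {N : ℕ}

/-- Pauli Z on one qubit (`false` is the +1 eigenstate). -/
noncomputable def pauliZ : M2 := Matrix.of fun a b => if a = b then (if a then -1 else 1) else 0

/-- Pauli X on one qubit. -/
noncomputable def pauliX : M2 := Matrix.of fun a b => if a = !b then 1 else 0

lemma pauliZ_sq : pauliZ * pauliZ = 1 := by
  ext a b; cases a <;> cases b <;> simp [pauliZ, Matrix.mul_apply]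

lemma pauliX_sq : pauliX * pauliX = 1 := by
  ext a b; cases a <;> cases b <;> simp [pauliX, Matrix.mul_apply]

lemma pauliZ_herm : pauliZᴴ = pauliZ := by
  ext a b; cases a <;> cases b <;> simp [pauliZ, Matrix.conjTranspose_apply]

lemma pauliX_herm : pauliXᴴ = pauliX := by
  ext a b; cases a <;> cases b <;> simp [pauliX, Matrix.conjTranspose_apply]

lemma norm_pauliZ : ‖pauliZ‖ ≤ 1 := by
  have h : ‖pauliZᴴ * pauliZ‖ = ‖pauliZ‖ * ‖pauliZ‖ := Matrix.l2_opNorm_conjTranspose_mul_self _
  rw [pauliZ_herm, pauliZ_sq, norm_one] at h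
  nlinarith [norm_nonneg pauliZ]

lemma norm_pauliX : ‖pauliX‖ ≤ 1 := by
  have h : ‖pauliXᴴ * pauliX‖ = ‖pauliX‖ * ‖pauliX‖ := Matrix.l2_opNorm_conjTranspose_mul_self _
  rw [pauliX_herm, pauliX_sq, norm_one] at h
  nlinarith [norm_nonneg pauliX]

noncomputable def Zs (i : Fin N) : Op N := site i pauliZ
noncomputable def Xs (i : Fin N) : Op N := site i pauliX

lemma norm_Zs (i : Fin N) : ‖Zs i‖ ≤ 1 := (norm_site_le i _).trans norm_pauliZ
lemma norm_Xs (i : Fin N) : ‖Xs i‖ ≤ 1 := (norm_site_le i _).trans norm_pauliX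

/-- The two-sided operation: `sl i A` is `(1/2)(⟨0|A|0⟩ - ⟨1|A|1⟩) ⊗ 1` on qubit `i`. -/
noncomputable def sl (i : Fin N) (A : Op N) : Op N :=
  (1 / 4 : ℂ) • (Zs i * A + A * Zs i + Xs i * (Zs i * (A * Xs i)) + Xs i * (A * (Zs i * Xs i)))

lemma sl_add (i : Fin N) (A B : Op N) : sl i (A + B) = sl i A + sl i B := by
  simp only [sl, mul_add, add_mul, smul_add]
  abel

lemma sl_smul (i : Fin N) (c : ℂ) (A : Op N) : sl i (c • A) = c • sl i A := by
  simp only [sl, mul_smul_comm, smul_mul_assoc, ← smul_add]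
  rw [smul_comm]

lemma mul_norm_aux {S B : Op N} (hS : ‖S‖ ≤ 1) : ‖S * B‖ ≤ ‖B‖ := by
  have h := norm_mul_le S B
  have h0 := norm_nonneg B
  nlinarith

lemma mul_norm_aux' {S B : Op N} (hS : ‖S‖ ≤ 1) : ‖B * S‖ ≤ ‖B‖ := by
  have h := norm_mul_le B S
  have h0 := norm_nonneg B
  nlinarith

lemma sl_def (i : Fin N) (A : Op N) : sl i A =
  (1 / 4 : ℂ) • (Zs i * A + A * Zs i + Xs i * (Zs i * (A * Xs i)) + Xs i * (A * (Zs i * Xs i))) :=
  rfl

lemma norm_sl_le (i : Fin N) (A : Op N) : ‖sl i A‖ ≤ ‖A‖ := by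
  have hZ := norm_Zs i
  have hX := norm_Xs i
  have t1 : ‖Zs i * A‖ ≤ ‖A‖ := mul_norm_aux hZ
  have t2 : ‖A * Zs i‖ ≤ ‖A‖ := mul_norm_aux' hZ
  have t2' : ‖A * Xs i‖ ≤ ‖A‖ := mul_norm_aux' hX
  have t3 : ‖Xs i * (Zs i * (A * Xs i))‖ ≤ ‖A‖ :=
    (mul_norm_aux hX).trans ((mul_norm_aux hZ).trans t2')
  have t4 : ‖Xs i * (A * (Zs i * Xs i))‖ ≤ ‖A‖ :=
    (mul_norm_aux hX).trans (mul_norm_aux' ((mul_norm_aux hZ).trans hX))
  rw [sl_def, norm_smul]
  have h4 : ‖(1 / 4 : ℂ)‖ = 1 / 4 := by norm_num
  rw [h4]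
  have := norm_add_le (Zs i * A + A * Zs i + Xs i * (Zs i * (A * Xs i))) (Xs i * (A * (Zs i * Xs i)))
  have := norm_add_le (Zs i * A + A * Zs i) (Xs i * (Zs i * (A * Xs i)))
  have := norm_add_le (Zs i * A) (A * Zs i)
  linarith

/-- `Off i B`: the operator `B` acts trivially on qubit `i`, in the form that is used below. -/
def Off (i : Fin N) (B : Op N) : Prop := Commute B (Zs i) ∧ Commute B (Xs i)

lemma sl_mul_left_off {i : Fin N} {B : Op N} (h : Off i B) (A : Op N) :
    sl i (B * A) = B * sl i A := by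
  have hz : ∀ c : Op N, Zs i * (B * c) = B * (Zs i * c) := fun c => (h.1.left_comm c).symm
  have hx : ∀ c : Op N, Xs i * (B * c) = B * (Xs i * c) := fun c => (h.2.left_comm c).symm
  simp only [sl, mul_assoc, mul_add, mul_smul_comm, hz, hx]

lemma sl_mul_right_off {i : Fin N} {B : Op N} (h : Off i B) (A : Op N) :
    sl i (A * B) = sl i A * B := by
  have hz : ∀ c : Op N, B * (Zs i * c) = Zs i * (B * c) := fun c => h.1.left_comm c
  have hx : ∀ c : Op N, B * (Xs i * c) = Xs i * (B * c) := fun c => h.2.left_comm c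
  have hz' : B * Zs i = Zs i * B := h.1.eq
  have hx' : B * Xs i = Xs i * B := h.2.eq
  simp only [sl, mul_assoc, add_mul, smul_mul_assoc, hz, hz', hx']

lemma site_commute {i j : Fin N} (hij : i ≠ j) (A B : M2) : Commute (site i A) (site j B) := by
  apply tensor_commute
  intro k
  by_cases hk : k = i
  · right; subst hk; simp [hij]
  · left; simp [hk]

lemma off_site {i j : Fin N} (hij : i ≠ j) (A : M2) : Off i (site j A) :=
  ⟨site_commute hij.symm _ _, site_commute hij.symm _ _⟩

lemma off_tensor {i : Fin N} {Y : Fin N → M2} (h : Y i = 1) : Off i (tensor Y) := by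
  constructor <;>
  · apply tensor_commute
    intro k
    by_cases hk : k = i
    · left; subst hk; exact h
    · right; simp [hk]

lemma Off.mul {i : Fin N} {A B : Op N} (hA : Off i A) (hB : Off i B) : Off i (A * B) :=
  ⟨hA.1.mul_left hB.1, hA.2.mul_left hB.2⟩

lemma Off.add {i : Fin N} {A B : Op N} (hA : Off i A) (hB : Off i B) : Off i (A + B) :=
  ⟨hA.1.add_left hB.1, hA.2.add_left hB.2⟩

lemma Off.sub {i : Fin N} {A B : Op N} (hA : Off i A) (hB : Off i B) : Off i (A - B) :=
  ⟨hA.1.sub_left hB.1, hA.2.sub_left hB.2⟩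

lemma Off.smul {i : Fin N} {A : Op N} (c : ℂ) (hA : Off i A) : Off i (c • A) :=
  ⟨hA.1.smul_left c, hA.2.smul_left c⟩

lemma off_one (i : Fin N) : Off i (1 : Op N) := ⟨Commute.one_left _, Commute.one_left _⟩

lemma Off.conjTranspose {i : Fin N} {A : Op N} (hA : Off i A) : Off i Aᴴ := by
  have hz : (Zs i)ᴴ = Zs i := by rw [Zs, site_conjTranspose, pauliZ_herm]
  have hx : (Xs i)ᴴ = Xs i := by rw [Xs, site_conjTranspose, pauliX_herm]
  constructor
  · show Aᴴ * Zs i = Zs i * Aᴴ
    have := hA.1.eq
    have h2 := congrArg Matrix.conjTranspose this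
    rw [Matrix.conjTranspose_mul, Matrix.conjTranspose_mul, hz] at h2
    exact h2.symm
  · show Aᴴ * Xs i = Xs i * Aᴴ
    have := hA.2.eq
    have h2 := congrArg Matrix.conjTranspose this
    rw [Matrix.conjTranspose_mul, Matrix.conjTranspose_mul, hx] at h2
    exact h2.symm

lemma sl_comm {i j : Fin N} (hij : i ≠ j) (A : Op N) : sl i (sl j A) = sl j (sl i A) := by
  have z1 : Off j (Zs i) := off_site hij.symm _
  have x1 : Off j (Xs i) := off_site hij.symm _
  rw [sl_def i (sl j A)]
  rw [← sl_mul_left_off z1, ← sl_mul_right_off z1, ← sl_mul_right_off x1,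
    ← sl_mul_left_off z1, ← sl_mul_left_off x1, ← sl_mul_right_off (z1.mul x1),
    ← sl_mul_left_off x1]
  simp only [← sl_add, ← sl_smul]
  rw [← sl_def]

/-- If `C` commutes with `A` and acts trivially on `i` then it commutes with `sl i A`. -/
lemma Off.slice {i j : Fin N} {A : Op N} (hij : j ≠ i) (hA : Off j A) : Off j (sl i A) := by
  have hz : Off i (Zs j) := off_site hij.symm _
  have hx : Off i (Xs j) := off_site hij.symm _
  constructor
  · show sl i A * Zs j = Zs j * sl i A
    rw [← sl_mul_right_off hz, ← sl_mul_left_off hz, hA.1.eq]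
  · show sl i A * Xs j = Xs j * sl i A
    rw [← sl_mul_right_off hx, ← sl_mul_left_off hx, hA.2.eq]

/-- The scalar of a one-qubit matrix under the slice. -/
noncomputable def tau (A : M2) : ℂ := (1 / 2) * (A false false - A true true)

lemma slice_M2 (A : M2) :
    (1 / 4 : ℂ) • (pauliZ * A + A * pauliZ + pauliX * (pauliZ * (A * pauliX))
      + pauliX * (A * (pauliZ * pauliX))) = tau A • (1 : M2) := by
  ext a b
  cases a <;> cases b <;>
    simp [pauliZ, pauliX, Matrix.mul_apply, tau] <;> ring

lemma sl_site (i : Fin N) (A : M2) : sl i (site i A) = tau A • (1 : Op N) := by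
  have h := congrArg (site i) (slice_M2 A)
  simp only [site_smul, site_add, site_mul, site_one] at h
  exact h

lemma tensor_eq_site_mul (i : Fin N) (Y : Fin N → M2) :
    tensor Y = site i (Y i) * tensor (Function.update Y i 1) := by
  rw [site, tensor_mul]
  congr 1
  funext j
  by_cases h : j = i
  · subst h; simp
  · simp [Function.update_of_ne h]

lemma sl_tensor (i : Fin N) (Y : Fin N → M2) :
    sl i (tensor Y) = tau (Y i) • tensor (Function.update Y i 1) := by
  have hoff : Off i (tensor (Function.update Y i 1)) := off_tensor (by simp)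
  conv_lhs => rw [tensor_eq_site_mul i Y]
  rw [sl_mul_right_off hoff, sl_site, smul_mul_assoc, one_mul]

lemma sl_one (i : Fin N) : sl i (1 : Op N) = 0 := by
  have := sl_site i (1 : M2)
  rw [site_one] at this
  rw [this]
  simp [tau]

/-- The slice as a linear map. -/
noncomputable def slL (i : Fin N) : Module.End ℂ (Op N) where
  toFun := sl i
  map_add' := sl_add i
  map_smul' := sl_smul i

lemma slL_apply (i : Fin N) (A : Op N) : slL i A = sl i A := rfl

lemma slL_comm (i j : Fin N) : Commute (slL i) (slL j) := by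
  by_cases h : i = j
  · subst h; exact Commute.refl _
  · apply LinearMap.ext
    intro A
    exact sl_comm h A

lemma slL_pairwise (S : Set (Fin N)) : S.Pairwise (Function.onFun Commute slL) :=
  fun i _ j _ _ => slL_comm i j

/-- The iterated slice over a set of qubits. -/
noncomputable def E (I : Finset (Fin N)) : Module.End ℂ (Op N) :=
  I.noncommProd slL (slL_pairwise _)

@[simp] lemma E_empty : E (∅ : Finset (Fin N)) = 1 := rfl

lemma E_insert {I : Finset (Fin N)} {i : Fin N} (hi : i ∉ I) :
    E (insert i I) = slL i * E I := by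
  rw [E, Finset.noncommProd_insert_of_notMem _ _ _ _ hi]
  rfl

lemma E_insert' {I : Finset (Fin N)} {i : Fin N} (hi : i ∉ I) :
    E (insert i I) = E I * slL i := by
  rw [E, Finset.noncommProd_insert_of_notMem' _ _ _ _ hi]
  rfl

lemma E_union {I J : Finset (Fin N)} (h : Disjoint I J) : E (I ∪ J) = E I * E J := by
  rw [E, Finset.noncommProd_union_of_disjoint h]
  rfl

lemma norm_E_le (I : Finset (Fin N)) (A : Op N) : ‖E I A‖ ≤ ‖A‖ := by
  induction I using Finset.induction_on with
  | empty => simp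
  | insert i I hi ih =>
    rw [E_insert hi]
    exact (norm_sl_le i _).trans ih

lemma E_mul_left_off {I : Finset (Fin N)} {B : Op N} (h : ∀ i ∈ I, Off i B) (A : Op N) :
    E I (B * A) = B * E I A := by
  induction I using Finset.induction_on with
  | empty => simp
  | insert i I hi ih =>
    rw [E_insert hi]
    show sl i (E I (B * A)) = B * sl i (E I A)
    rw [ih fun j hj => h j (Finset.mem_insert_of_mem hj),
      sl_mul_left_off (h i (Finset.mem_insert_self _ _))]

lemma E_mul_right_off {I : Finset (Fin N)} {B : Op N} (h : ∀ i ∈ I, Off i B) (A : Op N) :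
    E I (A * B) = E I A * B := by
  induction I using Finset.induction_on with
  | empty => simp
  | insert i I hi ih =>
    rw [E_insert hi]
    show sl i (E I (A * B)) = sl i (E I A) * B
    rw [ih fun j hj => h j (Finset.mem_insert_of_mem hj),
      sl_mul_right_off (h i (Finset.mem_insert_self _ _))]

lemma Off.sliceE {I : Finset (Fin N)} {j : Fin N} {A : Op N} (hj : j ∉ I) (hA : Off j A) :
    Off j (E I A) := by
  induction I using Finset.induction_on with
  | empty => simpa using hA
  | insert i I hi ih =>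
    rw [E_insert hi]
    have hji : j ≠ i := fun h => hj (h ▸ Finset.mem_insert_self _ _)
    exact Off.slice hji (ih fun h => hj (Finset.mem_insert_of_mem h))

lemma E_one_of_mem {I : Finset (Fin N)} {i : Fin N} (hi : i ∈ I) : E I (1 : Op N) = 0 := by
  classical
  have : I = insert i (I.erase i) := (Finset.insert_erase hi).symm
  rw [this, E_insert' (Finset.notMem_erase _ _)]
  show E _ (sl i 1) = 0
  rw [sl_one, map_zero]

/-- The slice of a product tensor. -/
lemma E_tensor (I : Finset (Fin N)) (Y : Fin N → M2) :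
    E I (tensor Y) = (∏ i ∈ I, tau (Y i)) • tensor fun j => if j ∈ I then 1 else Y j := by
  induction I using Finset.induction_on generalizing Y with
  | empty => simp
  | insert i I hi ih =>
    rw [E_insert' hi]
    show E I (sl i (tensor Y)) = _
    rw [sl_tensor, map_smul, ih, smul_smul, Finset.prod_insert hi]
    have h1 : ∏ j ∈ I, tau (Function.update Y i 1 j) = ∏ j ∈ I, tau (Y j) := by
      refine Finset.prod_congr rfl fun j hj => ?_
      have : j ≠ i := fun h => hi (h ▸ hj)
      rw [Function.update_of_ne this]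
    rw [h1]
    congr 2
    funext j
    by_cases hj : j = i
    · subst hj; simp [hi]
    · simp [hj, Finset.mem_insert]

end Vale.Agent.Lib.P368x
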