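import Vale.Agent.Lib.P368x.Defs

open scoped BigOperators Matrix Matrix.Norms.L2Operator

namespace Vale.Agent.Lib.P368x

variable {N : ℕ}

abbrev M2 := Matrix Bool Bool ℂ

@[simp] lemma tensor_apply (X : Fin N → M2) (a b : Str N) :
    tensor X a b = ∏ i, X i (a i) (b i) := rfl

lemma tensor_mul (X Y : Fin N → M2) : tensor X * tensor Y = tensor fun i => X i * Y i := by
  ext a b
  simp only [Matrix.mul_apply, tensor_apply]
  have h := (Finset.prod_univ_sum (fun _ : Fin N => (Finset.univ : Finset Bool))
    (fun i c => X i (a i) c * Y i c (b i)))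
  rw [h, Fintype.piFinset_univ]
  refine Finset.sum_congr rfl fun c _ => ?_
  rw [Finset.prod_mul_distrib]

lemma tensor_one : tensor (fun _ : Fin N => (1 : M2)) = 1 := by
  ext a b
  simp only [tensor_apply, Matrix.one_apply]
  by_cases h : a = b
  · subst h; simp
  · rw [if_neg h]
    obtain ⟨i, hi⟩ := Function.ne_iff.mp h
    exact Finset.prod_eq_zero (Finset.mem_univ i) (by simp [hi])

lemma tensor_conjTranspose (X : Fin N → M2) : (tensor X)ᴴ = tensor fun i => (X i)ᴴ := by
  ext a b
  simp [Matrix.conjTranspose_apply]

/-- `site i A` is the operator `A` on qubit `i`. -/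
noncomputable def site (i : Fin N) (A : M2) : Op N := tensor (Function.update (fun _ => 1) i A)

lemma site_apply (i : Fin N) (A : M2) (a b : Str N) :
    site i A a b = A (a i) (b i) * ∏ j ∈ Finset.univ.erase i, (1 : M2) (a j) (b j) := by
  simp only [site, tensor_apply]
  rw [← Finset.mul_prod_erase _ _ (Finset.mem_univ i)]
  congr 1
  · simp
  · refine Finset.prod_congr rfl fun j hj => ?_
    rw [Function.update_of_ne (Finset.ne_of_mem_erase hj)]

lemma site_one (i : Fin N) : site i (1 : M2) = 1 := by
  have : Function.update (fun _ : Fin N => (1 : M2)) i 1 = fun _ => 1 := by simp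
  rw [site, this, tensor_one]

lemma site_mul (i : Fin N) (A B : M2) : site i (A * B) = site i A * site i B := by
  rw [site, site, site, tensor_mul]
  congr 1
  funext j
  by_cases h : j = i
  · subst h; simp
  · simp [Function.update_of_ne h]

lemma site_add (i : Fin N) (A B : M2) : site i (A + B) = site i A + site i B := by
  ext a b
  simp only [Matrix.add_apply, site_apply, add_mul]

lemma site_smul (i : Fin N) (c : ℂ) (A : M2) : site i (c • A) = c • site i A := by
  ext a b
  simp only [Matrix.smul_apply, site_apply, smul_eq_mul, mul_assoc]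

lemma site_conjTranspose (i : Fin N) (A : M2) : (site i A)ᴴ = site i Aᴴ := by
  rw [site, site, tensor_conjTranspose]
  congr 1
  funext j
  by_cases h : j = i
  · subst h; simp
  · simp [Function.update_of_ne h]

/-- The star algebra homomorphism `A ↦ site i A`. -/
noncomputable def siteHom (i : Fin N) : M2 →⋆ₐ[ℂ] Op N where
  toFun := site i
  map_one' := site_one i
  map_mul' := site_mul i
  map_zero' := by
    have := site_smul i 0 (1 : M2)
    simpa using this
  map_add' := site_add i
  commutes' r := by
    have := site_smul i (algebraMap ℂ ℂ r) (1 : M2)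
    rw [site_one] at this
    simpa [Algebra.algebraMap_eq_smul_one] using this
  map_star' A := (site_conjTranspose i A).symm

lemma norm_site_le (i : Fin N) (A : M2) : ‖site i A‖ ≤ ‖A‖ :=
  NonUnitalStarAlgHom.norm_apply_le (siteHom i) A

lemma norm_one_op : ‖(1 : Op N)‖ = 1 := CStarRing.norm_one

lemma norm_one_m2 : ‖(1 : M2)‖ = 1 := CStarRing.norm_one

/-- Product over a set of sites. -/
lemma norm_tensor_restrict_le (X : Fin N → M2) (h : ∀ i, ‖X i‖ ≤ 1) (S : Finset (Fin N)) :
    ‖tensor fun i => if i ∈ S then X i else 1‖ ≤ 1 := by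
  classical
  induction S using Finset.induction_on with
  | empty => simp [tensor_one]
  | insert i S hi ih =>
    have : (tensor fun j => if j ∈ insert i S then X j else 1)
        = site i (X i) * tensor fun j => if j ∈ S then X j else 1 := by
      rw [site, tensor_mul]
      congr 1
      funext j
      by_cases hj : j = i
      · subst hj; simp [hi]
      · simp [Finset.mem_insert, hj]
    rw [this]
    calc _ ≤ ‖site i (X i)‖ * ‖tensor fun j => if j ∈ S then X j else 1‖ := norm_mul_le _ _
      _ ≤ 1 * 1 := by
        gcongr
        · exact (norm_site_le i _).trans (h i)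
      _ = 1 := by norm_num

lemma norm_tensor_le_one (X : Fin N → M2) (h : ∀ i, ‖X i‖ ≤ 1) : ‖tensor X‖ ≤ 1 := by
  have := norm_tensor_restrict_le X h Finset.univ
  simpa using this

/-- Tensors whose supports do not overlap commute. -/
lemma tensor_commute {X Y : Fin N → M2} (h : ∀ i, X i = 1 ∨ Y i = 1) :
    Commute (tensor X) (tensor Y) := by
  show tensor X * tensor Y = tensor Y * tensor X
  rw [tensor_mul, tensor_mul]
  congr 1
  funext i
  rcases h i with h | h <;> simp [h]

end Vale.Agent.Lib.P368x
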