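import Vale.Agent.Lib.P368x.Gate

open scoped BigOperators Matrix Matrix.Norms.L2Operator

namespace Vale.Agent.Lib.P368x

variable {N : ℕ}

/-- `|1⟩⟨1|`. -/
noncomputable def e11 : M2 := Matrix.of fun a b => if a = true ∧ b = true then 1 else 0

/-- `|-⟩⟨-|`. -/
noncomputable def eMinus : M2 := Matrix.of fun a b => (1 / 2) * (if a = b then 1 else -1)

/-- `|0⟩⟨0|`. -/
noncomputable def e00 : M2 := Matrix.of fun a b => if a = false ∧ b = false then 1 else 0

lemma proj1_e11 : Proj1 e11 := by
  refine ⟨fun a => if a then 1 else 0, by simp [nsq], ?_⟩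
  ext a b
  cases a <;> cases b <;> simp [e11, Matrix.vecMulVec_apply]

lemma proj1_e00 : Proj1 e00 := by
  refine ⟨fun a => if a then 0 else 1, by simp [nsq], ?_⟩
  ext a b
  cases a <;> cases b <;> simp [e00, Matrix.vecMulVec_apply]

lemma proj1_eMinus : Proj1 eMinus := by
  have h2 : ((Real.sqrt 2 : ℝ) : ℂ) * ((Real.sqrt 2 : ℝ) : ℂ) = 2 := by
    rw [← Complex.ofReal_mul, Real.mul_self_sqrt (by norm_num)]
    norm_num
  have hne : ((Real.sqrt 2 : ℝ) : ℂ) ≠ 0 := by
    intro h
    rw [h] at h2
    norm_num at h2
  refine ⟨fun a => if a then -(1 / ((Real.sqrt 2 : ℝ) : ℂ)) else 1 / ((Real.sqrt 2 : ℝ) : ℂ), ?_, ?_⟩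
  · simp [nsq]
    norm_num
  · ext a b
    have hstar : star (((Real.sqrt 2 : ℝ) : ℂ)) = ((Real.sqrt 2 : ℝ) : ℂ) := Complex.conj_ofReal _
    cases a <;> cases b <;>
      simp [eMinus, Matrix.vecMulVec_apply, hstar] <;>
      field_simp <;> simp [pow_two, h2]

/-- The site factors of the normal form of a Toffoli gate. -/
noncomputable def Toffoli.ρ (g : Toffoli N) (s : Fin N) : M2 :=
  if s ∈ g.controls then e11 else if s = g.target then eMinus else 1

lemma Toffoli.tensor_ρ (g : Toffoli N) (a b : Str N) :
    tensor g.ρ a b = if (∀ s, s ≠ g.target → a s = b s) ∧ (∀ c ∈ g.controls, b c = true)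
      then eMinus (a g.target) (b g.target) else 0 := by
  classical
  rw [tensor_apply]
  by_cases hc : (∀ s, s ≠ g.target → a s = b s) ∧ (∀ c ∈ g.controls, b c = true)
  · rw [if_pos hc]
    have ht : g.ρ g.target = eMinus := by simp [Toffoli.ρ, g.target_not_mem]
    rw [Finset.prod_eq_single g.target]
    · rw [ht]
    · intro s _ hs
      have hab := hc.1 s hs
      by_cases hsC : s ∈ g.controls
      · have hb := hc.2 s hsC
        simp [Toffoli.ρ, hsC, e11, hab, hb]
      · simp [Toffoli.ρ, hsC, hs, Matrix.one_apply, hab]
    · simp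
  · rw [if_neg hc]
    rw [not_and_or] at hc
    rcases hc with hc | hc
    · simp only [not_forall] at hc
      obtain ⟨s, hs, hne⟩ := hc
      apply Finset.prod_eq_zero (Finset.mem_univ s)
      by_cases hsC : s ∈ g.controls
      · simp only [Toffoli.ρ, hsC, if_true, e11, Matrix.of_apply]
        rw [if_neg]
        rintro ⟨h1, h2⟩
        exact hne (h1.trans h2.symm)
      · simp [Toffoli.ρ, hsC, hs, hne]
    · simp only [not_forall] at hc
      obtain ⟨c, hcC, hne⟩ := hc
      apply Finset.prod_eq_zero (Finset.mem_univ c)
      simp only [Toffoli.ρ, hcC, if_true, e11, Matrix.of_apply]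
      rw [if_neg]
      rintro ⟨_, h2⟩
      exact hne h2

lemma Toffoli.act_of_all (g : Toffoli N) (b : Str N) (hc : ∀ c ∈ g.controls, b c = true) :
    g.act b = Function.update b g.target (!b g.target) := by
  have h : (decide (∀ c ∈ g.controls, b c = true)) = true := by simpa using hc
  rw [Toffoli.act, h, Bool.xor_true]

lemma Toffoli.act_of_not (g : Toffoli N) (b : Str N) (hc : ¬ ∀ c ∈ g.controls, b c = true) :
    g.act b = b := by
  simp only [Toffoli.act]
  rw [decide_eq_false hc]
  simp

lemma Toffoli.op_apply (g : Toffoli N) (a b : Str N) : g.op a b = if a = g.act b then 1 else 0 := rfl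

/-- A Toffoli gate is the reflection `1 - 2 ⊗ ρ`. -/
lemma Toffoli.op_eq (g : Toffoli N) : g.op = 1 - (2 : ℂ) • tensor g.ρ := by
  classical
  ext a b
  rw [Matrix.sub_apply, Matrix.smul_apply, smul_eq_mul, Matrix.one_apply, g.op_apply, g.tensor_ρ]
  by_cases hc : ∀ c ∈ g.controls, b c = true
  · rw [g.act_of_all b hc]
    by_cases hoff : ∀ s, s ≠ g.target → a s = b s
    · rw [if_pos (show (∀ s, s ≠ g.target → a s = b s) ∧ (∀ c ∈ g.controls, b c = true)
        from ⟨hoff, hc⟩)]
      by_cases hat : a g.target = b g.target
      · have hab : a = b := by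
          funext s
          by_cases hs : s = g.target
          · rw [hs, hat]
          · exact hoff s hs
        subst hab
        have : a ≠ Function.update a g.target (!a g.target) := by
          intro h
          have := congrFun h g.target
          simp at this
        rw [if_neg this]
        simp [eMinus]
      · have hab : a ≠ b := fun h => hat (by rw [h])
        have : a = Function.update b g.target (!b g.target) := by
          funext s
          by_cases hs : s = g.target
          · subst hs
            simp only [Function.update_self]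
            cases h1 : a g.target <;> cases h2 : b g.target <;> simp_all
          · rw [Function.update_of_ne hs]
            exact hoff s hs
        rw [if_pos this, if_neg hab]
        simp [eMinus, hat]
    · rw [if_neg (show ¬ ((∀ s, s ≠ g.target → a s = b s) ∧ (∀ c ∈ g.controls, b c = true))
        from fun h => hoff h.1)]
      have hab : a ≠ b := by
        intro h
        exact hoff fun s _ => by rw [h]
      have : a ≠ Function.update b g.target (!b g.target) := by
        intro h
        apply hoff
        intro s hs
        rw [h, Function.update_of_ne hs]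
      rw [if_neg this, if_neg hab]
      simp
  · rw [g.act_of_not b hc, if_neg (show ¬ ((∀ s, s ≠ g.target → a s = b s) ∧
      (∀ c ∈ g.controls, b c = true)) from fun h => hc h.2)]
    simp

/-- A unitary two-by-two matrix, in the form that is used below. -/
def Uni (v : M2) : Prop := vᴴ * v = 1 ∧ v * vᴴ = 1

lemma uni_of_unitary (V : Matrix.unitaryGroup Bool ℂ) : Uni (V : M2) := by
  constructor
  · have := (Matrix.mem_unitaryGroup_iff').mp V.2
    rwa [Matrix.star_eq_conjTranspose] at this
  · have := (Matrix.mem_unitaryGroup_iff).mp V.2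
    rwa [Matrix.star_eq_conjTranspose] at this

lemma Uni.mul {v w : M2} (hv : Uni v) (hw : Uni w) : Uni (v * w) := by
  constructor
  · rw [Matrix.conjTranspose_mul]
    calc wᴴ * vᴴ * (v * w) = wᴴ * (vᴴ * v) * w := by simp only [mul_assoc]
      _ = 1 := by rw [hv.1, mul_one, hw.1]
  · rw [Matrix.conjTranspose_mul]
    calc v * w * (wᴴ * vᴴ) = v * (w * wᴴ) * vᴴ := by simp only [mul_assoc]
      _ = 1 := by rw [hw.2, mul_one, hv.2]

lemma nsq_eq (u : Bool → ℂ) : ((nsq u : ℝ) : ℂ) = star u ⬝ᵥ u := by
  have e0 : star (u false) * u false = ((‖u false‖ ^ 2 : ℝ) : ℂ) := by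
    simp [Complex.conj_mul']
  have e1 : star (u true) * u true = ((‖u true‖ ^ 2 : ℝ) : ℂ) := by
    simp [Complex.conj_mul']
  simp only [dotProduct, Fintype.sum_bool, Pi.star_apply]
  rw [e0, e1, nsq]
  push_cast
  ring

/-- A rank-one projector conjugated by a unitary is a rank-one projector. -/
lemma Proj1.conj {ρ v : M2} (h : Proj1 ρ) (hv : Uni v) : Proj1 (vᴴ * ρ * v) := by
  obtain ⟨u, hu, rfl⟩ := h
  refine ⟨vᴴ *ᵥ u, ?_, ?_⟩
  · have : ((nsq (vᴴ *ᵥ u) : ℝ) : ℂ) = ((nsq u : ℝ) : ℂ) := by
      rw [nsq_eq, nsq_eq, Matrix.star_mulVec, Matrix.conjTranspose_conjTranspose,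
        ← Matrix.dotProduct_mulVec, Matrix.mulVec_mulVec, hv.2, Matrix.one_mulVec]
    rw [Complex.ofReal_inj.mp this, hu]
  · rw [Matrix.star_mulVec, Matrix.conjTranspose_conjTranspose, Matrix.mul_vecMulVec,
      Matrix.vecMulVec_mul]

/-- The conjugate of a Toffoli gate by a layer of one-qubit unitaries. -/
noncomputable def Toffoli.conj (g : Toffoli N) (v : Fin N → M2) (hv : ∀ i, Uni (v i)) : RGate N where
  S := g.support
  ρ := fun s => (v s)ᴴ * g.ρ s * v s
  hS := by
    intro s hs
    apply Proj1.conj _ (hv s)
    by_cases hC : s ∈ g.controls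
    · simp only [Toffoli.ρ, hC, if_true]; exact proj1_e11
    · have ht : s = g.target := by
        rcases Finset.mem_insert.mp hs with h | h
        · exact h
        · exact absurd h hC
      have h3 : g.ρ s = eMinus := by
        rw [ht]
        simp [Toffoli.ρ, g.target_not_mem]
      rw [h3]
      exact proj1_eMinus
  hO := by
    intro s hs
    have h1 : s ∉ g.controls := fun h => hs (Finset.mem_insert_of_mem h)
    have h2 : s ≠ g.target := fun h => hs (h ▸ Finset.mem_insert_self _ _)
    simp only [Toffoli.ρ, h1, h2, if_false, mul_one]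
    exact (hv s).1

lemma tensor_unitary {v : Fin N → M2} (hv : ∀ i, Uni (v i)) : (tensor v)ᴴ * tensor v = 1 := by
  rw [tensor_conjTranspose, tensor_mul]
  have : (fun i => (v i)ᴴ * v i) = fun _ => (1 : M2) := by
    funext i; exact (hv i).1
  rw [this, tensor_one]

lemma tensor_unitary' {v : Fin N → M2} (hv : ∀ i, Uni (v i)) : tensor v * (tensor v)ᴴ = 1 := by
  rw [tensor_conjTranspose, tensor_mul]
  have : (fun i => v i * (v i)ᴴ) = fun _ => (1 : M2) := by
    funext i; exact (hv i).2
  rw [this, tensor_one]

lemma Toffoli.conj_op (g : Toffoli N) (v : Fin N → M2) (hv : ∀ i, Uni (v i)) :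
    (tensor v)ᴴ * g.op * tensor v = (g.conj v hv).op := by
  rw [g.op_eq, RGate.op, mul_sub, sub_mul, mul_one, tensor_unitary hv, mul_smul_comm,
    smul_mul_assoc]
  congr 2
  rw [tensor_conjTranspose, tensor_mul, tensor_mul]
  rfl

/-- The unitary of a list of Toffoli gates conjugated by one-qubit unitaries. -/
lemma list_conj (gs : List (Toffoli N)) (v : Fin N → M2) (hv : ∀ i, Uni (v i)) :
    (tensor v)ᴴ * (gs.map Toffoli.op).prod * tensor v = lop (gs.map fun g => g.conj v hv) := by
  induction gs with
  | nil =>
    simp [tensor_unitary hv]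
  | cons g gs ih =>
    rw [List.map_cons, List.prod_cons, List.map_cons, lop_cons, ← ih, ← g.conj_op v hv]
    calc (tensor v)ᴴ * (g.op * (gs.map Toffoli.op).prod) * tensor v
        = (tensor v)ᴴ * g.op * 1 * (gs.map Toffoli.op).prod * tensor v := by
          simp only [mul_one, mul_assoc]
      _ = (tensor v)ᴴ * g.op * (tensor v * (tensor v)ᴴ) * (gs.map Toffoli.op).prod * tensor v := by
          rw [tensor_unitary' hv]
      _ = _ := by simp only [mul_assoc]

lemma list_conj_pairwise (gs : List (Toffoli N))
    (h : gs.Pairwise fun g h => Disjoint g.support h.support) (v : Fin N → M2)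
    (hv : ∀ i, Uni (v i)) :
    (gs.map fun g => g.conj v hv).Pairwise fun g h => Disjoint g.S h.S := by
  rw [List.pairwise_map]
  exact h

/-- Linear dependence on one factor of a tensor. -/
lemma tensor_update_apply (Y : Fin N → M2) (q : Fin N) (A : M2) (a b : Str N) :
    tensor (Function.update Y q A) a b = A (a q) (b q) * ∏ j ∈ Finset.univ.erase q, Y j (a j) (b j) := by
  rw [tensor_apply, ← Finset.mul_prod_erase _ _ (Finset.mem_univ q)]
  congr 1
  · simp
  · refine Finset.prod_congr rfl fun j hj => ?_
    rw [Function.update_of_ne (Finset.ne_of_mem_erase hj)]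

lemma tensor_update_add (Y : Fin N → M2) (q : Fin N) (A B : M2) :
    tensor (Function.update Y q (A + B)) = tensor (Function.update Y q A) + tensor (Function.update Y q B) := by
  ext a b
  simp only [Matrix.add_apply, tensor_update_apply, add_mul]

lemma tensor_update_smul (Y : Fin N → M2) (q : Fin N) (c : ℂ) (A : M2) :
    tensor (Function.update Y q (c • A)) = c • tensor (Function.update Y q A) := by
  ext a b
  simp only [Matrix.smul_apply, tensor_update_apply, smul_eq_mul, mul_assoc]

lemma tensor_update_sub (Y : Fin N → M2) (q : Fin N) (A B : M2) :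
    tensor (Function.update Y q (A - B)) = tensor (Function.update Y q A) - tensor (Function.update Y q B) := by
  ext a b
  simp only [Matrix.sub_apply, tensor_update_apply, sub_mul]

/-- Conjugating a one-site projector by one reflection containing the site. -/
lemma gate_conj_site (g : RGate N) (q : Fin N) (p : M2) (hq : q ∈ g.S) :
    g.op * site q p * g.op = site q p
      + tensor (Function.update g.ρ q ((1 - (2 : ℂ) • g.ρ q) * p * (1 - (2 : ℂ) • g.ρ q)))
      - tensor (Function.update g.ρ q p) := by
  set ρq := g.ρ q with hρq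
  have e1 : tensor g.ρ * site q p = tensor (Function.update g.ρ q (ρq * p)) := by
    rw [site, tensor_mul]
    congr 1
    funext s
    by_cases hs : s = q
    · subst hs; simp [hρq]
    · simp [hs]
  have e2 : site q p * tensor g.ρ = tensor (Function.update g.ρ q (p * ρq)) := by
    rw [site, tensor_mul]
    congr 1
    funext s
    by_cases hs : s = q
    · subst hs; simp [hρq]
    · simp [hs]
  have e3 : tensor g.ρ * site q p * tensor g.ρ = tensor (Function.update g.ρ q (ρq * p * ρq)) := by
    rw [e1, tensor_mul]
    congr 1
    funext s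
    by_cases hs : s = q
    · subst hs; simp [hρq]
    · have hh := (g.site_ok s).idem
      simp [hs, hh]
  have e4 : (1 - (2 : ℂ) • ρq) * p * (1 - (2 : ℂ) • ρq)
      = p - (2 : ℂ) • (ρq * p) - (2 : ℂ) • (p * ρq) + (4 : ℂ) • (ρq * p * ρq) := by
    simp only [mul_sub, sub_mul, mul_one, one_mul, smul_mul_assoc, mul_smul_comm]
    ext a b
    simp only [Matrix.sub_apply, Matrix.add_apply, Matrix.smul_apply, smul_eq_mul]
    ring
  rw [e4, tensor_update_add, tensor_update_sub, tensor_update_sub, tensor_update_smul,
    tensor_update_smul, tensor_update_smul, ← e1, ← e2, ← e3]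
  simp only [RGate.op, mul_sub, sub_mul, mul_one, one_mul, smul_mul_assoc, mul_smul_comm]
  ext a b
  simp only [Matrix.sub_apply, Matrix.add_apply, Matrix.smul_apply, smul_eq_mul]
  norm_num
  ring

/-- One-site projector conjugated by a layer of reflections. -/
lemma layer_conj_site (gs : List (RGate N)) (hgs : gs.Pairwise fun g h => Disjoint g.S h.S)
    (q : Fin N) (p : M2) (hp : Proj1 p) :
    (lop gs)ᴴ * site q p * lop gs = site q p ∨
      ∃ X₁ X₂ : Fin N → M2, (∀ s, SiteOK (X₁ s)) ∧ (∀ s, SiteOK (X₂ s)) ∧
        (lop gs)ᴴ * site q p * lop gs = site q p + tensor X₁ - tensor X₂ := by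
  induction gs with
  | nil => left; simp
  | cons g gs ih =>
    obtain ⟨hg, hgs'⟩ := List.pairwise_cons.mp hgs
    have hunfold : (lop (g :: gs))ᴴ * site q p * lop (g :: gs)
        = (lop gs)ᴴ * (g.op * site q p * g.op) * lop gs := by
      rw [lop_cons, Matrix.conjTranspose_mul, g.herm]
      simp only [mul_assoc]
    by_cases hq : q ∈ g.S
    · right
      set r : M2 := 1 - (2 : ℂ) • g.ρ q with hr
      have hρ := g.hS q hq
      have hru : Uni r := by
        have hh : rᴴ = r := by
          rw [hr, Matrix.conjTranspose_sub, Matrix.conjTranspose_smul, hρ.herm]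
          simp
        have hs : r * r = 1 := by
          simp only [hr, mul_sub, sub_mul, mul_one, one_mul, smul_mul_assoc, mul_smul_comm,
            hρ.idem]
          ext a b
          simp only [Matrix.sub_apply, Matrix.smul_apply, smul_eq_mul]
          ring
        exact ⟨by rw [hh, hs], by rw [hh, hs]⟩
      have hprp : Proj1 (r * p * r) := by
        have := hp.conj hru
        have hh : rᴴ = r := by
          rw [hr, Matrix.conjTranspose_sub, Matrix.conjTranspose_smul, hρ.herm]
          simp
        rwa [hh] at this
      have ok : ∀ (A : M2), Proj1 A → ∀ s, SiteOK (Function.update g.ρ q A s) := by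
        intro A hA s
        by_cases hs : s = q
        · subst hs; simp only [Function.update_self]; exact Or.inr hA
        · simp only [Function.update_of_ne hs]; exact g.site_ok s
      refine ⟨Function.update g.ρ q (r * p * r), Function.update g.ρ q p, ok _ hprp, ok _ hp, ?_⟩
      rw [hunfold, gate_conj_site g q p hq]
      have hsupp : ∀ (A : M2) , ∀ h ∈ gs, ∀ s ∈ h.S, Function.update g.ρ q A s = 1 := by
        intro A h hh s hs
        have hd : s ∉ g.S := fun hs' => (Finset.disjoint_left.mp (hg h hh)) hs' hs
        have hne : s ≠ q := fun h' => hd (h' ▸ hq)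
        rw [Function.update_of_ne hne]
        exact g.hO s hd
      have c1 : Commute (lop gs) (site q p) := by
        apply lop_commute_tensor
        intro h hh s hs
        have hd : s ∉ g.S := fun hs' => (Finset.disjoint_left.mp (hg h hh)) hs' hs
        have hne : s ≠ q := fun h' => hd (h' ▸ hq)
        simp [hne]
      have c2 := lop_commute_tensor gs _ (hsupp (r * p * r))
      have c3 := lop_commute_tensor gs _ (hsupp p)
      have c : Commute (lop gs) (site q p + tensor (Function.update g.ρ q (r * p * r))
          - tensor (Function.update g.ρ q p)) := (c1.add_right c2).sub_right c3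
      rw [mul_assoc, ← c.eq, ← mul_assoc, lop_unitary, one_mul]
    · have hc : Commute g.op (site q p) := by
        refine Commute.sub_left (Commute.one_left _) (Commute.smul_left ?_ _)
        apply tensor_commute
        intro s
        by_cases hs : s ∈ g.S
        · right
          have : s ≠ q := fun h => hq (h ▸ hs)
          simp [this]
        · left; exact g.hO s hs
      have hgg : g.op * site q p * g.op = site q p := by
        rw [hc.eq, mul_assoc, g.sq, mul_one]
      rw [hunfold, hgg]
      exact ih hgs'

end Vale.Agent.Lib.P368x
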